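import Vale.Agent.Lib.P047.Local

namespace Vale.Agent.Lib.P047

theorem cert_ii8 : CertOK 8 0
    (tb [[-70], [24], [-5], [0], [0], [0], [1], [0], [-10]])
    (tb [[0], [0], [0], [0], [0], [0], [0], [0], [0]])
    0 0 1 0 0 0 := by
  decide +kernel

theorem cert_b7 : CertOK 7 0
    (tb [[-36], [15], [-4], [0], [0], [1], [0], [-6]])
    (tb [[0], [0], [0], [0], [0], [0], [0], [0]])
    (-1) 0 1 0 0 0 := by
  decide +kernel

theorem cert_b6_1 : CertOK 6 1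
    (tb [[-36, 15], [15, -4], [-4, 0], [0, 0], [0, 1], [1, 0], [0, -6]])
    (tb [[0, 0], [0, 0], [0, 0], [0, 0], [0, 0], [0, 0], [0, 0]])
    (-1) 0 1 0 0 0 := by
  decide +kernel

theorem cert_b5_3 : CertOK 5 3
    (tb [[-165, 45, 0, -9], [63, -11, -1, 0], [-15, 0, 0, 0], [0, 0, 0, 3], [0, 2, 1, 0], [0, 0, 0, -21]])
    (tb [[0, 0, 0, 0], [0, 0, 0, 0], [0, 0, 0, 0], [0, 0, 0, 0], [0, 0, 0, 0], [0, 0, 0, 0]])
    (-1) 0 1 0 0 0 := by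
  decide +kernel

theorem cert_b4_5 : CertOK 4 5
    (tb [[-5360, 1218, 0, -102, 0, 0], [1890, -294, -13, 0, 0, 0], [-376, 0, 0, 0, 0, 86], [0, 0, 0, 29, 0, 0], [0, 0, 24, 0, 0, -530]])
    (tb [[0, 0, 0, 0, 0, 0], [0, 0, 0, 0, 0, 0], [0, 0, 0, 0, 0, 0], [0, 0, 0, 0, 0, 0], [0, 0, 0, 0, 0, 0]])
    (-1) 0 1 0 0 0 := by
  decide +kernel

theorem cert_b3_7 : CertOK 3 7
    (tb [[-1365, 240, 0, 0, -9, 0, 0, 0], [540, -80, 0, 0, 0, 0, 0, 20], [-70, 0, 0, 0, 0, 0, 10, 0], [-60, 0, 0, 6, 0, 0, 0, -150]])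
    (tb [[0, 0, 0, 0, 0, 0, 0, 0], [0, 0, 0, 0, 0, 0, 0, 0], [0, 0, 0, 0, 0, 0, 0, 0], [0, 0, 0, 0, 0, 0, 0, 0]])
    (-1) 0 1 0 0 0 := by
  decide +kernel

theorem cert_b2_9 : CertOK 2 9
    (tb [[-700, 105, 0, 0, -2, 0, 0, 0, 0, 7], [315, -40, 0, 0, 0, 0, 0, 0, 5, 0], [-56, 0, 0, 0, 0, 1, 0, 0, 0, -70]])
    (tb [[0, 0, 0, 0, 0, 0, 0, 0, 0, 0], [0, 0, 0, 0, 0, 0, 0, 0, 0, 0], [0, 0, 0, 0, 0, 0, 0, 0, 0, 0]])
    (-1) 0 1 0 0 0 := by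
  decide +kernel

theorem cert_b1_12 : CertOK 1 12
    (tb [[-7560, 924, 0, 0, -8, 0, 0, 0, 0, 0, 0, 36, 0], [3465, -360, 0, 0, 0, 0, 0, 0, 3, 0, 0, 0, -630]])
    (tb [[0, 0, 0, 0, 0, 0, 0, 0, 0, 0, 0, 0, 0], [0, 0, 0, 0, 0, 0, 0, 0, 0, 0, 0, 0, 0]])
    (-1) 0 1 0 0 0 := by
  decide +kernel

theorem cert_e7_6 : CertOK 7 6
    (tb [[-1945508046, 280222085, -23651810, 0, 0, 6578411, 0], [311526030, 0, -5350670, -26235, 0, 0, 0], [-31824180, -1514466, -660525, 0, 0, 0, -1914709], [0, -1221088, 0, 0, 0, 0, 0], [0, 0, 0, 0, 0, 370762, 0], [1885191, 0, 0, 0, 397285, 898984, 2015470], [0, 0, 0, 574560, 0, 0, -3814320], [-585390, -605454, 0, 0, 0, 0, -119584206]])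
    (tb [[-386993706, -6259565, 23651810, 0, 0, -6578411, 0], [143845770, 0, -5350670, -26235, 0, 0, 0], [-31824180, -1514466, 660525, 0, 0, 0, 1914709], [0, 1221088, 0, 0, 0, 0, 0], [0, 0, 0, 0, 0, 370762, 0], [1885191, 0, 0, 0, 397285, -898984, -2015470], [0, 0, 0, -574560, 0, 0, -3814320], [585390, -605454, 0, 0, 0, 0, 45434046]])
    (-1) 0 0 1 0 (-1) := by
  decide +kernel

theorem cert_e9_1 : CertOK 9 1
    (tb [[-3969, 792], [1000, -105], [-140, 0], [0, 0], [-5, -4], [4, 3], [0, 0], [0, 20], [15, 0], [0, -441]])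
    (tb [[-2079, 552], [680, -105], [-140, 0], [0, 0], [5, 4], [4, 3], [0, 0], [0, -20], [-15, 0], [0, 231]])
    (-1) 0 0 1 0 (-1) := by
  decide +kernel

theorem cert_e10_0 : CertOK 10 0
    (tb [[-3465], [832], [-105], [0], [-5], [0], [3], [0], [15], [0], [-385]])
    (tb [[-1575], [512], [-105], [0], [5], [0], [3], [0], [-15], [0], [175]])
    (-1) 0 0 1 0 (-1) := by
  decide +kernel

end Vale.Agent.Lib.P047
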