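import Vale.Agent.Lib.P047.Cube

namespace Vale.Agent.Lib.P047

open Finset

/-- level one sum of a function whose positive part is a combination of subcube indicators -/
lemma levelOne_of_rep {n : ℕ} (f : (Fin n → Bool) → ℝ)
    (P : Finset (Fin n → Option Bool)) (c : (Fin n → Option Bool) → ℝ)
    (hrep : ∀ x, (1 + f x) / 2 = ∑ ρ ∈ P, if InCube ρ x then c ρ else 0) :
    levelOne f = 2 * ∑ ρ ∈ P, c ρ * ((1 / 2 : ℝ) ^ codim ρ * fixedSum ρ) := by
  rw [levelOne_eq]
  have h1 : ∀ x : Fin n → Bool, f x * tot x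
      = 2 * (∑ ρ ∈ P, c ρ * (if InCube ρ x then tot x else 0)) - tot x := by
    intro x
    have hx : f x = 2 * (∑ ρ ∈ P, if InCube ρ x then c ρ else 0) - 1 := by
      rw [← hrep x]; ring
    rw [hx, sub_mul, one_mul, mul_assoc, Finset.sum_mul]
    congr 2
    apply Finset.sum_congr rfl
    intro ρ _
    by_cases h : InCube ρ x <;> simp [h]
  simp_rw [h1]
  rw [Finset.sum_sub_distrib, sum_tot, sub_zero, ← Finset.mul_sum, Finset.sum_comm]
  simp_rw [← Finset.mul_sum, sum_cube_tot, vol_eq]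
  rw [mul_div_assoc, Finset.sum_div]
  congr 1
  apply Finset.sum_congr rfl
  intro ρ _
  have : (2 : ℝ) ^ n ≠ 0 := by positivity
  field_simp

/-- the exponentially tilted weight -/
noncomputable def tilt (l : ℝ) (b : Bool) : ℝ := Real.exp (l * sgn b) / (2 * Real.cosh l)

lemma tilt_pos (l : ℝ) (b : Bool) : 0 < tilt l b := by
  unfold tilt
  have := Real.cosh_pos l
  positivity

lemma tilt_sum (l : ℝ) : tilt l true + tilt l false = 1 := by
  unfold tilt sgn
  have := Real.cosh_pos l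
  rw [Real.cosh_eq]
  simp only [if_true, mul_one]
  have h2 : Real.exp l + Real.exp (-l) > 0 := by positivity
  simp
  field_simp

lemma fac_tilt (l : ℝ) (o : Option Bool) :
    fac (tilt l) o = Real.exp (l * val o) * (if o ≠ none then 1 / (2 * Real.cosh l) else 1) := by
  rcases o with _ | b
  · simp [fac, tilt_sum, val]
  · simp [fac, tilt, val]; ring

lemma prod_fac_tilt {n : ℕ} (l : ℝ) (ρ : Fin n → Option Bool) :
    ∏ i, fac (tilt l) (ρ i)
      = Real.exp (l * fixedSum ρ) * (1 / (2 * Real.cosh l)) ^ codim ρ := by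
  simp_rw [fac_tilt]
  rw [Finset.prod_mul_distrib, ← Real.exp_sum, ← Finset.mul_sum, Finset.prod_ite]
  simp [fixedSum, codim]

lemma tilt_total {n : ℕ} (l : ℝ) : ∑ x : Fin n → Bool, ∏ i, tilt l (x i) = 1 := by
  rw [← Fintype.prod_sum (fun (_ : Fin n) b => tilt l b)]
  simp [tilt_sum]

/-- the tilted mass of a sub-probability combination of subcubes is at most one -/
lemma tilt_mass_le {n : ℕ} (l : ℝ) (g : (Fin n → Bool) → ℝ) (hg : ∀ x, g x ≤ 1)
    (P : Finset (Fin n → Option Bool)) (c : (Fin n → Option Bool) → ℝ)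
    (hrep : ∀ x, g x = ∑ ρ ∈ P, if InCube ρ x then c ρ else 0) :
    ∑ ρ ∈ P, c ρ * ∏ i, fac (tilt l) (ρ i) ≤ 1 := by
  have h1 : ∑ ρ ∈ P, c ρ * ∏ i, fac (tilt l) (ρ i)
      = ∑ x : Fin n → Bool, g x * ∏ i, tilt l (x i) := by
    simp_rw [← sum_cube_prod, Finset.mul_sum]
    rw [Finset.sum_comm]
    apply Finset.sum_congr rfl
    intro x _
    rw [hrep x, Finset.sum_mul]
    apply Finset.sum_congr rfl
    intro ρ _
    by_cases h : InCube ρ x <;> simp [h]
  rw [h1, ← tilt_total (n := n) l]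
  apply Finset.sum_le_sum
  intro x _
  have hp : 0 < ∏ i, tilt l (x i) := Finset.prod_pos (fun i _ => tilt_pos l _)
  nlinarith [hg x]

lemma term_bound (l : ℝ) (hl : 0 < l) (s : ℝ) (κ k : ℕ) (hκ : κ ≤ k) :
    (1 / 2 : ℝ) ^ κ * s ≤ Real.cosh l ^ k / (Real.exp 1 * l)
      * (Real.exp (l * s) * (1 / (2 * Real.cosh l)) ^ κ) := by
  have hc : 1 ≤ Real.cosh l := Real.one_le_cosh l
  have hc0 : 0 < Real.cosh l := Real.cosh_pos l
  have h1 : Real.exp 1 * (l * s) ≤ Real.exp (l * s) := by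
    have := Real.add_one_le_exp (l * s - 1)
    have h2 : Real.exp (l * s - 1) = Real.exp (l * s) / Real.exp 1 := Real.exp_sub _ _
    rw [h2] at this
    have he : 0 < Real.exp 1 := Real.exp_pos 1
    rw [le_div_iff₀ he] at this
    linarith
  have h3 : Real.cosh l ^ κ ≤ Real.cosh l ^ k := pow_le_pow_right₀ hc hκ
  have he : 0 < Real.exp 1 := Real.exp_pos 1
  have h4 : (1 / (2 * Real.cosh l)) ^ κ = (1 / 2 : ℝ) ^ κ / Real.cosh l ^ κ := by
    rw [← div_pow]; congr 1; field_simp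
  rw [h4]
  have h5 : Real.cosh l ^ k / (Real.exp 1 * l) * (Real.exp (l * s) * ((1 / 2 : ℝ) ^ κ / Real.cosh l ^ κ))
      = (1 / 2 : ℝ) ^ κ * ((Real.cosh l ^ k / Real.cosh l ^ κ) * (Real.exp (l * s) / (Real.exp 1 * l))) := by
    field_simp
  rw [h5]
  apply mul_le_mul_of_nonneg_left _ (by positivity)
  have h6 : 1 ≤ Real.cosh l ^ k / Real.cosh l ^ κ := by
    rw [le_div_iff₀ (by positivity)]; linarith
  have h7 : s ≤ Real.exp (l * s) / (Real.exp 1 * l) := by
    rw [le_div_iff₀ (by positivity)]; nlinarith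
  have h8 : 0 ≤ Real.exp (l * s) / (Real.exp 1 * l) := by positivity
  nlinarith

/-- general bound with a free parameter -/
lemma conical_param {n k : ℕ} (f : (Fin n → Bool) → ℝ) (hf : ∀ x, f x ≤ 1)
    (P : Finset (Fin n → Option Bool)) (c : (Fin n → Option Bool) → ℝ)
    (hc : ∀ ρ ∈ P, 0 ≤ c ρ) (hk : ∀ ρ ∈ P, codim ρ ≤ k)
    (hrep : ∀ x, (1 + f x) / 2 = ∑ ρ ∈ P, if InCube ρ x then c ρ else 0)
    (l : ℝ) (hl : 0 < l) :
    levelOne f ≤ 2 * (Real.cosh l ^ k / (Real.exp 1 * l)) := by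
  rw [levelOne_of_rep f P c hrep]
  apply mul_le_mul_of_nonneg_left _ (by norm_num)
  have hm := tilt_mass_le l (fun x => (1 + f x) / 2) (fun x => by linarith [hf x]) P c hrep
  have hA : 0 ≤ Real.cosh l ^ k / (Real.exp 1 * l) := by
    have := Real.cosh_pos l
    positivity
  calc ∑ ρ ∈ P, c ρ * ((1 / 2 : ℝ) ^ codim ρ * fixedSum ρ)
      ≤ ∑ ρ ∈ P, c ρ * (Real.cosh l ^ k / (Real.exp 1 * l) * ∏ i, fac (tilt l) (ρ i)) := by
        apply Finset.sum_le_sum
        intro ρ hρ
        apply mul_le_mul_of_nonneg_left _ (hc ρ hρ)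
        rw [prod_fac_tilt]
        exact term_bound l hl _ _ _ (hk ρ hρ)
    _ = Real.cosh l ^ k / (Real.exp 1 * l) * ∑ ρ ∈ P, c ρ * ∏ i, fac (tilt l) (ρ i) := by
        rw [Finset.mul_sum]
        apply Finset.sum_congr rfl
        intro ρ _
        ring
    _ ≤ Real.cosh l ^ k / (Real.exp 1 * l) * 1 := mul_le_mul_of_nonneg_left hm hA
    _ = _ := mul_one _

theorem conical_bound {n k : ℕ} (f : (Fin n → Bool) → ℝ) (hf : ∀ x, f x ≤ 1)
    (P : Finset (Fin n → Option Bool)) (c : (Fin n → Option Bool) → ℝ)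
    (hc : ∀ ρ ∈ P, 0 ≤ c ρ) (hk : ∀ ρ ∈ P, codim ρ ≤ k)
    (hrep : ∀ x, (1 + f x) / 2 = ∑ ρ ∈ P, if InCube ρ x then c ρ else 0) :
    levelOne f ≤ 2 * Real.sqrt (k / Real.exp 1) := by
  rcases Nat.eq_zero_or_pos k with hk0 | hkpos
  · subst hk0
    rw [levelOne_of_rep f P c hrep]
    have : ∑ ρ ∈ P, c ρ * ((1 / 2 : ℝ) ^ codim ρ * fixedSum ρ) = 0 := by
      apply Finset.sum_eq_zero
      intro ρ hρ
      have h0 : codim ρ = 0 := Nat.le_zero.mp (hk ρ hρ)
      have h1 : fixedSum ρ = 0 := by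
        unfold fixedSum
        apply Finset.sum_eq_zero
        intro i _
        unfold codim at h0
        rw [Finset.card_eq_zero, Finset.filter_eq_empty_iff] at h0
        have := h0 (Finset.mem_univ i)
        simp only [ne_eq, not_not] at this
        rw [this]; rfl
      rw [h1]; ring
    rw [this]; simp
  · have hkr : (0 : ℝ) < k := by exact_mod_cast hkpos
    have hs : 0 < Real.sqrt k := Real.sqrt_pos.mpr hkr
    have h := conical_param f hf P c hc hk hrep (1 / Real.sqrt k) (by positivity)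
    refine h.trans ?_
    apply mul_le_mul_of_nonneg_left _ (by norm_num)
    have h1 : Real.cosh (1 / Real.sqrt k) ^ k ≤ Real.exp (1 / 2) := by
      have h2 := Real.cosh_le_exp_half_sq (1 / Real.sqrt k)
      have h3 : (1 / Real.sqrt k) ^ 2 / 2 = 1 / (2 * k) := by
        rw [div_pow, Real.sq_sqrt hkr.le]; field_simp
      rw [h3] at h2
      calc Real.cosh (1 / Real.sqrt k) ^ k ≤ Real.exp (1 / (2 * k)) ^ k :=
            pow_le_pow_left₀ (Real.cosh_pos _).le h2 k
        _ = Real.exp (1 / 2) := by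
            rw [← Real.exp_nat_mul]; congr 1; field_simp
    have he : 0 < Real.exp 1 := Real.exp_pos 1
    have h4 : Real.sqrt (k / Real.exp 1) = Real.sqrt k / Real.exp (1 / 2) := by
      rw [Real.sqrt_div hkr.le]
      congr 1
      rw [Real.sqrt_eq_iff_mul_self_eq he.le (Real.exp_pos _).le, ← Real.exp_add]
      norm_num
    rw [h4]
    have h5 : Real.exp 1 = Real.exp (1 / 2) * Real.exp (1 / 2) := by
      rw [← Real.exp_add]; norm_num
    have hh : 0 < Real.exp (1 / 2) := Real.exp_pos _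
    calc Real.cosh (1 / Real.sqrt k) ^ k / (Real.exp 1 * (1 / Real.sqrt k))
        ≤ Real.exp (1 / 2) / (Real.exp 1 * (1 / Real.sqrt k)) := by
          apply div_le_div_of_nonneg_right h1 (by positivity)
      _ = Real.sqrt k / Real.exp (1 / 2) := by
          rw [h5]; field_simp


lemma levelOne_neg {n : ℕ} (f : (Fin n → Bool) → ℝ) : levelOne (fun x => - f x) = - levelOne f := by
  rw [levelOne_eq, levelOne_eq]
  simp only [neg_mul, Finset.sum_neg_distrib]
  ring

/-- lower bound with a free parameter (tilting in the other direction) -/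
lemma conical_param_neg {n k : ℕ} (f : (Fin n → Bool) → ℝ) (hf : ∀ x, f x ≤ 1)
    (P : Finset (Fin n → Option Bool)) (c : (Fin n → Option Bool) → ℝ)
    (hc : ∀ ρ ∈ P, 0 ≤ c ρ) (hk : ∀ ρ ∈ P, codim ρ ≤ k)
    (hrep : ∀ x, (1 + f x) / 2 = ∑ ρ ∈ P, if InCube ρ x then c ρ else 0)
    (l : ℝ) (hl : 0 < l) :
    - levelOne f ≤ 2 * (Real.cosh l ^ k / (Real.exp 1 * l)) := by
  rw [levelOne_of_rep f P c hrep, ← mul_neg]
  apply mul_le_mul_of_nonneg_left _ (by norm_num)
  have hm := tilt_mass_le (-l) (fun x => (1 + f x) / 2) (fun x => by linarith [hf x]) P c hrep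
  have hA : 0 ≤ Real.cosh l ^ k / (Real.exp 1 * l) := by
    have := Real.cosh_pos l
    positivity
  rw [← Finset.sum_neg_distrib]
  calc ∑ ρ ∈ P, - (c ρ * ((1 / 2 : ℝ) ^ codim ρ * fixedSum ρ))
      ≤ ∑ ρ ∈ P, c ρ * (Real.cosh l ^ k / (Real.exp 1 * l) * ∏ i, fac (tilt (-l)) (ρ i)) := by
        apply Finset.sum_le_sum
        intro ρ hρ
        have e : - (c ρ * ((1 / 2 : ℝ) ^ codim ρ * fixedSum ρ))
            = c ρ * ((1 / 2 : ℝ) ^ codim ρ * (- fixedSum ρ)) := by ring
        rw [e]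
        apply mul_le_mul_of_nonneg_left _ (hc ρ hρ)
        rw [prod_fac_tilt, Real.cosh_neg]
        have := term_bound l hl (- fixedSum ρ) _ _ (hk ρ hρ)
        have e2 : l * - fixedSum ρ = - l * fixedSum ρ := by ring
        rw [e2] at this
        exact this
    _ = Real.cosh l ^ k / (Real.exp 1 * l) * ∑ ρ ∈ P, c ρ * ∏ i, fac (tilt (-l)) (ρ i) := by
        rw [Finset.mul_sum]
        apply Finset.sum_congr rfl
        intro ρ _
        ring
    _ ≤ Real.cosh l ^ k / (Real.exp 1 * l) * 1 := mul_le_mul_of_nonneg_left hm hA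
    _ = _ := mul_one _

lemma opt_param {k : ℕ} (hkpos : 0 < k) :
    Real.cosh (1 / Real.sqrt k) ^ k / (Real.exp 1 * (1 / Real.sqrt k))
      ≤ Real.sqrt (k / Real.exp 1) := by
  have hkr : (0 : ℝ) < k := by exact_mod_cast hkpos
  have hs : 0 < Real.sqrt k := Real.sqrt_pos.mpr hkr
  have h1 : Real.cosh (1 / Real.sqrt k) ^ k ≤ Real.exp (1 / 2) := by
    have h2 := Real.cosh_le_exp_half_sq (1 / Real.sqrt k)
    have h3 : (1 / Real.sqrt k) ^ 2 / 2 = 1 / (2 * k) := by
      rw [div_pow, Real.sq_sqrt hkr.le]; field_simp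
    rw [h3] at h2
    calc Real.cosh (1 / Real.sqrt k) ^ k ≤ Real.exp (1 / (2 * k)) ^ k :=
          pow_le_pow_left₀ (Real.cosh_pos _).le h2 k
      _ = Real.exp (1 / 2) := by
          rw [← Real.exp_nat_mul]; congr 1; field_simp
  have he : 0 < Real.exp 1 := Real.exp_pos 1
  have h4 : Real.sqrt (k / Real.exp 1) = Real.sqrt k / Real.exp (1 / 2) := by
    rw [Real.sqrt_div hkr.le]
    congr 1
    rw [Real.sqrt_eq_iff_mul_self_eq he.le (Real.exp_pos _).le, ← Real.exp_add]
    norm_num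
  rw [h4]
  have h5 : Real.exp 1 = Real.exp (1 / 2) * Real.exp (1 / 2) := by
    rw [← Real.exp_add]; norm_num
  have hh : 0 < Real.exp (1 / 2) := Real.exp_pos _
  calc Real.cosh (1 / Real.sqrt k) ^ k / (Real.exp 1 * (1 / Real.sqrt k))
      ≤ Real.exp (1 / 2) / (Real.exp 1 * (1 / Real.sqrt k)) := by
        apply div_le_div_of_nonneg_right h1 (by positivity)
    _ = Real.sqrt k / Real.exp (1 / 2) := by
        rw [h5]; field_simp

theorem conical_bound_abs {n k : ℕ} (f : (Fin n → Bool) → ℝ) (hf : ∀ x, f x ≤ 1)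
    (P : Finset (Fin n → Option Bool)) (c : (Fin n → Option Bool) → ℝ)
    (hc : ∀ ρ ∈ P, 0 ≤ c ρ) (hk : ∀ ρ ∈ P, codim ρ ≤ k)
    (hrep : ∀ x, (1 + f x) / 2 = ∑ ρ ∈ P, if InCube ρ x then c ρ else 0) :
    |levelOne f| ≤ 2 * Real.sqrt (k / Real.exp 1) := by
  rw [abs_le]
  refine ⟨?_, conical_bound f hf P c hc hk hrep⟩
  rcases Nat.eq_zero_or_pos k with hk0 | hkpos
  · subst hk0
    rw [levelOne_of_rep f P c hrep]
    have : ∑ ρ ∈ P, c ρ * ((1 / 2 : ℝ) ^ codim ρ * fixedSum ρ) = 0 := by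
      apply Finset.sum_eq_zero
      intro ρ hρ
      have h0 : codim ρ = 0 := Nat.le_zero.mp (hk ρ hρ)
      have h1 : fixedSum ρ = 0 := by
        unfold fixedSum
        apply Finset.sum_eq_zero
        intro i _
        unfold codim at h0
        rw [Finset.card_eq_zero, Finset.filter_eq_empty_iff] at h0
        have := h0 (Finset.mem_univ i)
        simp only [ne_eq, not_not] at this
        rw [this]; rfl
      rw [h1]; ring
    rw [this]; simp
  · have hkr : (0 : ℝ) < k := by exact_mod_cast hkpos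
    have hs : 0 < Real.sqrt k := Real.sqrt_pos.mpr hkr
    have h := conical_param_neg f hf P c hc hk hrep (1 / Real.sqrt k) (by positivity)
    have h2 := opt_param hkpos
    linarith

/-- two-sided version: either the indicator of `f = 1` or that of `f = -1` is a conical junta -/
theorem conical_bound_signed {n k : ℕ} (f : (Fin n → Bool) → ℝ) (hf : ∀ x, |f x| ≤ 1)
    (σ : ℝ) (hσ : σ = 1 ∨ σ = -1)
    (P : Finset (Fin n → Option Bool)) (c : (Fin n → Option Bool) → ℝ)
    (hc : ∀ ρ ∈ P, 0 ≤ c ρ) (hk : ∀ ρ ∈ P, codim ρ ≤ k)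
    (hrep : ∀ x, (1 + σ * f x) / 2 = ∑ ρ ∈ P, if InCube ρ x then c ρ else 0) :
    |levelOne f| ≤ 2 * Real.sqrt (k / Real.exp 1) := by
  rcases hσ with h | h
  · subst h
    simp only [one_mul] at hrep
    exact conical_bound_abs f (fun x => (abs_le.mp (hf x)).2) P c hc hk hrep
  · subst h
    have hrep' : ∀ x, (1 + (fun x => - f x) x) / 2 = ∑ ρ ∈ P, if InCube ρ x then c ρ else 0 := by
      intro x
      rw [← hrep x]; ring
    have := conical_bound_abs (fun x => - f x) (fun x => by linarith [(abs_le.mp (hf x)).1]) P c hc hk hrep'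
    rwa [levelOne_neg, abs_neg] at this

end Vale.Agent.Lib.P047
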