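import Vale.Agent.Lib.P047.Defs

namespace Vale.Agent.Lib.P047

open Finset

/-- value of a possibly fixed coordinate -/
def val (o : Option Bool) : ℝ := match o with
  | some b => sgn b
  | none => 0

/-- sum of the fixed coordinates of a subcube -/
noncomputable def fixedSum {n : ℕ} (ρ : Fin n → Option Bool) : ℝ := ∑ i, val (ρ i)

/-- factor attached to a coordinate by a weight `w` -/
def fac {R : Type*} [Add R] (w : Bool → R) (o : Option Bool) : R := match o with
  | some b => w b
  | none => w true + w false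

lemma sgn_sq (b : Bool) : sgn b * sgn b = 1 := by
  cases b <;> simp [sgn]

lemma sgn_not (b : Bool) : sgn (!b) = - sgn b := by
  cases b <;> simp [sgn]

/-- product formula for weighted sums over a subcube -/
lemma sum_cube_prod {R : Type*} [CommSemiring R] {n : ℕ} (ρ : Fin n → Option Bool)
    (w : Bool → R) :
    ∑ x : Fin n → Bool, (if InCube ρ x then ∏ i, w (x i) else 0) = ∏ i, fac w (ρ i) := by
  have h1 : ∀ x : Fin n → Bool, (if InCube ρ x then ∏ i, w (x i) else 0)
      = ∏ i, (if ρ i = none ∨ ρ i = some (x i) then w (x i) else 0) := by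
    intro x
    by_cases h : InCube ρ x
    · rw [if_pos h]
      apply Finset.prod_congr rfl
      intro i _
      rw [if_pos (h i)]
    · rw [if_neg h]
      unfold InCube at h
      push Not at h
      obtain ⟨i, hi⟩ := h
      symm
      apply Finset.prod_eq_zero (Finset.mem_univ i)
      rw [if_neg]
      push Not
      exact hi
  simp_rw [h1]
  rw [← Fintype.prod_sum (fun i b => if ρ i = none ∨ ρ i = some b then w b else 0)]
  apply Finset.prod_congr rfl
  intro i _
  rw [Fintype.sum_bool]
  rcases h : ρ i with _ | b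
  · simp [fac]
  · cases b <;> simp [fac]


/-- flipping the `j`-th bit -/
def flip {n : ℕ} (j : Fin n) (x : Fin n → Bool) : Fin n → Bool :=
  Function.update x j (!x j)

lemma flip_flip {n : ℕ} (j : Fin n) (x : Fin n → Bool) : flip j (flip j x) = x := by
  funext i
  by_cases h : i = j
  · subst h; simp [flip]
  · simp [flip, Function.update_of_ne h]

/-- flipping as an equivalence -/
def flipEquiv {n : ℕ} (j : Fin n) : (Fin n → Bool) ≃ (Fin n → Bool) where
  toFun := flip j
  invFun := flip j
  left_inv := flip_flip j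
  right_inv := flip_flip j

lemma flip_same {n : ℕ} (j : Fin n) (x : Fin n → Bool) : flip j x j = !x j := by
  simp [flip]

lemma flip_ne {n : ℕ} {i j : Fin n} (h : i ≠ j) (x : Fin n → Bool) : flip j x i = x i := by
  simp [flip, Function.update_of_ne h]

lemma inCube_flip {n : ℕ} {ρ : Fin n → Option Bool} {j : Fin n} (hj : ρ j = none)
    (x : Fin n → Bool) : InCube ρ (flip j x) ↔ InCube ρ x := by
  unfold InCube
  constructor
  · intro h i
    by_cases hi : i = j
    · subst hi; exact Or.inl hj
    · have := h i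
      rwa [flip_ne hi] at this
  · intro h i
    by_cases hi : i = j
    · subst hi; exact Or.inl hj
    · rw [flip_ne hi]; exact h i

/-- an odd function under a free flip sums to zero over the subcube -/
lemma sum_cube_odd {n : ℕ} {ρ : Fin n → Option Bool} {j : Fin n} (hj : ρ j = none)
    (F : (Fin n → Bool) → ℝ) (hF : ∀ x, F (flip j x) = - F x) :
    ∑ x : Fin n → Bool, (if InCube ρ x then F x else 0) = 0 := by
  have h := Equiv.sum_comp (flipEquiv j) (fun x => if InCube ρ x then F x else 0)
  have h2 : ∑ x : Fin n → Bool, (if InCube ρ ((flipEquiv j) x) then F ((flipEquiv j) x) else 0)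
      = - ∑ x : Fin n → Bool, (if InCube ρ x then F x else 0) := by
    rw [← Finset.sum_neg_distrib]
    apply Finset.sum_congr rfl
    intro x _
    have e : (flipEquiv j) x = flip j x := rfl
    rw [e]
    by_cases hx : InCube ρ x
    · rw [if_pos hx, if_pos ((inCube_flip hj x).2 hx), hF]
    · rw [if_neg hx, if_neg (fun h' => hx ((inCube_flip hj x).1 h'))]; simp
  rw [h2] at h
  linarith

/-- number of points of the subcube, as a real -/
noncomputable def vol {n : ℕ} (ρ : Fin n → Option Bool) : ℝ :=
  ∑ x : Fin n → Bool, (if InCube ρ x then (1 : ℝ) else 0)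

lemma sum_cube_sgn {n : ℕ} (ρ : Fin n → Option Bool) (j : Fin n) (G : (Fin n → Bool) → ℝ)
    (hG : ∀ x, G (flip j x) = G x) :
    ∑ x : Fin n → Bool, (if InCube ρ x then sgn (x j) * G x else 0)
      = val (ρ j) * ∑ x : Fin n → Bool, (if InCube ρ x then G x else 0) := by
  rcases h : ρ j with _ | b
  · rw [sum_cube_odd h]
    · simp [val]
    · intro x
      rw [flip_same, sgn_not, hG]; ring
  · rw [Finset.mul_sum]
    apply Finset.sum_congr rfl
    intro x _
    by_cases hx : InCube ρ x
    · rw [if_pos hx, if_pos hx]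
      have := hx j
      rw [h] at this
      rcases this with h0 | h0
      · exact absurd h0 (by simp)
      · have hb : b = x j := by simpa using h0
        rw [← hb]; simp [val]
    · rw [if_neg hx, if_neg hx]; simp

lemma sum_cube_sgn1 {n : ℕ} (ρ : Fin n → Option Bool) (j : Fin n) :
    ∑ x : Fin n → Bool, (if InCube ρ x then sgn (x j) else 0) = val (ρ j) * vol ρ := by
  have := sum_cube_sgn ρ j (fun _ => 1) (fun _ => rfl)
  simpa [vol] using this

lemma sum_cube_sgn2 {n : ℕ} (ρ : Fin n → Option Bool) {i j : Fin n} (hij : i ≠ j) :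
    ∑ x : Fin n → Bool, (if InCube ρ x then sgn (x i) * sgn (x j) else 0)
      = val (ρ i) * val (ρ j) * vol ρ := by
  rw [sum_cube_sgn ρ i (fun x => sgn (x j)) (fun x => by rw [flip_ne (Ne.symm hij)]),
    sum_cube_sgn1, mul_assoc]

/-- total sign sum of a point -/
noncomputable def tot {n : ℕ} (x : Fin n → Bool) : ℝ := ∑ i, sgn (x i)

lemma sum_cube_tot {n : ℕ} (ρ : Fin n → Option Bool) :
    ∑ x : Fin n → Bool, (if InCube ρ x then tot x else 0) = fixedSum ρ * vol ρ := by
  have h : ∀ x : Fin n → Bool, (if InCube ρ x then tot x else 0)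
      = ∑ j, (if InCube ρ x then sgn (x j) else 0) := by
    intro x
    by_cases hx : InCube ρ x
    · simp [hx, tot]
    · simp [hx]
  simp_rw [h]
  rw [Finset.sum_comm]
  simp_rw [sum_cube_sgn1]
  rw [fixedSum, Finset.sum_mul]

lemma val_sq (o : Option Bool) : val o * val o = if o ≠ none then 1 else 0 := by
  rcases o with _ | b
  · simp [val]
  · simp [val, sgn_sq]

lemma sum_val_sq {n : ℕ} (ρ : Fin n → Option Bool) : ∑ i, val (ρ i) * val (ρ i) = codim ρ := by
  simp_rw [val_sq]
  rw [Finset.sum_ite]
  simp [codim]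


lemma sum_cube_tot_sq {n : ℕ} (ρ : Fin n → Option Bool) :
    ∑ x : Fin n → Bool, (if InCube ρ x then tot x * tot x else 0)
      = (fixedSum ρ * fixedSum ρ + n - codim ρ) * vol ρ := by
  have h : ∀ x : Fin n → Bool, (if InCube ρ x then tot x * tot x else 0)
      = ∑ i, ∑ j, (if InCube ρ x then sgn (x i) * sgn (x j) else 0) := by
    intro x
    by_cases hx : InCube ρ x
    · simp only [hx, if_true, tot]
      rw [Finset.sum_mul_sum]
    · simp [hx]
  simp_rw [h]
  rw [Finset.sum_comm]
  have h2 : ∀ i : Fin n, ∑ x : Fin n → Bool, ∑ j, (if InCube ρ x then sgn (x i) * sgn (x j) else 0)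
      = ∑ j, (val (ρ i) * val (ρ j) + (if i = j then 1 - val (ρ i) * val (ρ i) else 0)) * vol ρ := by
    intro i
    rw [Finset.sum_comm]
    apply Finset.sum_congr rfl
    intro j _
    by_cases hij : i = j
    · subst hij
      simp only [sgn_sq, if_true]
      rw [vol]; ring
    · rw [sum_cube_sgn2 ρ hij, if_neg hij]; ring
  simp_rw [h2]
  simp_rw [← Finset.sum_mul]
  congr 1
  simp_rw [Finset.sum_add_distrib]
  simp only [Finset.sum_ite_eq, Finset.mem_univ, if_true]
  rw [Finset.sum_sub_distrib, sum_val_sq, fixedSum, Finset.sum_mul_sum]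
  simp
  ring

lemma levelOne_eq {n : ℕ} (f : (Fin n → Bool) → ℝ) :
    levelOne f = (∑ x : Fin n → Bool, f x * tot x) / 2 ^ n := by
  unfold levelOne fourier tot
  rw [← Finset.sum_div]
  congr 1
  rw [Finset.sum_comm]
  apply Finset.sum_congr rfl
  intro x _
  simp [Finset.mul_sum]

lemma fac_half (o : Option Bool) :
    fac (fun _ => (1 / 2 : ℝ)) o = if o ≠ none then 1 / 2 else 1 := by
  rcases o with _ | b
  · simp [fac]; norm_num
  · simp [fac]

lemma vol_eq {n : ℕ} (ρ : Fin n → Option Bool) : vol ρ = 2 ^ n * (1 / 2 : ℝ) ^ codim ρ := by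
  have h := sum_cube_prod ρ (fun _ => (1 / 2 : ℝ))
  simp_rw [fac_half] at h
  rw [Finset.prod_ite] at h
  simp only [Finset.prod_const, Finset.card_univ, Fintype.card_fin, one_pow, mul_one] at h
  have h3 : ∑ x : Fin n → Bool, (if InCube ρ x then (1 / 2 : ℝ) ^ n else 0)
      = (1 / 2 : ℝ) ^ n * vol ρ := by
    rw [vol, Finset.mul_sum]
    apply Finset.sum_congr rfl
    intro x _
    by_cases hx : InCube ρ x <;> simp [hx]
  rw [h3] at h
  have h4 : (2 : ℝ) ^ n * (1 / 2 : ℝ) ^ n = 1 := by
    rw [← mul_pow]; norm_num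
  unfold codim
  rw [← h, ← mul_assoc, h4, one_mul]

lemma vol_pos {n : ℕ} (ρ : Fin n → Option Bool) : 0 < vol ρ := by
  rw [vol_eq]; positivity

lemma sum_tot {n : ℕ} : ∑ x : Fin n → Bool, tot x = 0 := by
  have h := sum_cube_tot (fun _ : Fin n => (none : Option Bool))
  have h1 : ∀ x : Fin n → Bool, InCube (fun _ : Fin n => (none : Option Bool)) x :=
    fun x i => Or.inl rfl
  simp only [h1, if_true] at h
  rw [h]
  simp [fixedSum, val]

lemma sum_tot_sq {n : ℕ} : ∑ x : Fin n → Bool, tot x * tot x = n * 2 ^ n := by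
  have h := sum_cube_tot_sq (fun _ : Fin n => (none : Option Bool))
  have h1 : ∀ x : Fin n → Bool, InCube (fun _ : Fin n => (none : Option Bool)) x :=
    fun x i => Or.inl rfl
  simp only [h1, if_true] at h
  rw [h, vol_eq]
  simp [fixedSum, val, codim]

end Vale.Agent.Lib.P047
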