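import Mathlib

namespace Vale.Agent.Lib.P047

/-- Sign of a bit: `true` is `+1`, `false` is `-1`.  A point of the cube `{-1,1}^n` is coded
by `x : Fin n → Bool`, its `i`-th coordinate being `sgn (x i)`. -/
def sgn (b : Bool) : ℝ := if b then 1 else -1

/-- Fourier coefficient `E[f(X) ∏_{i ∈ S} X_i]`, `X` uniform on the cube. -/
noncomputable def fourier {n : ℕ} (f : (Fin n → Bool) → ℝ) (S : Finset (Fin n)) : ℝ :=
  (∑ x : Fin n → Bool, f x * ∏ i ∈ S, sgn (x i)) / 2 ^ n

/-- The sum of the level-one Fourier coefficients. -/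
noncomputable def levelOne {n : ℕ} (f : (Fin n → Bool) → ℝ) : ℝ :=
  ∑ i : Fin n, fourier f {i}

/-- A subcube is coded by a restriction `ρ`: coordinate `i` is fixed to `b` when
`ρ i = some b` and free when `ρ i = none`.  `InCube ρ x` says that `x` lies in the subcube. -/
def InCube {n : ℕ} (ρ : Fin n → Option Bool) (x : Fin n → Bool) : Prop :=
  ∀ i, ρ i = none ∨ ρ i = some (x i)

instance {n : ℕ} (ρ : Fin n → Option Bool) (x : Fin n → Bool) : Decidable (InCube ρ x) :=
  inferInstanceAs (Decidable (∀ i, ρ i = none ∨ ρ i = some (x i)))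

/-- Codimension of the subcube: the number of fixed coordinates. -/
def codim {n : ℕ} (ρ : Fin n → Option Bool) : ℕ :=
  (Finset.univ.filter (fun i => ρ i ≠ none)).card

/-- `B k = E|X_1 + ... + X_k|`, `X` uniform on `{-1,1}^k`. -/
noncomputable def B (k : ℕ) : ℝ :=
  (∑ x : Fin k → Bool, |∑ i, sgn (x i)|) / 2 ^ k

end Vale.Agent.Lib.P047
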