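import Vale.Agent.Lib.P047.Inversion
import Vale.Agent.Lib.P047.Certs

namespace Vale.Agent.Lib.P047

open Finset

/-- Every Boolean function of degree at most four has level-one Fourier sum at most `7/4`. -/
theorem levelOne_le_of_deg_four {n : ℕ} (f : (Fin n → Bool) → ℝ) (hf : ∀ x, f x = 1 ∨ f x = -1)
    (hdeg : ∀ S, 4 < S.card → fourier f S = 0) : levelOne f ≤ 7 / 4 := by
  obtain ⟨O, hOdef⟩ : ∃ O, O = oddPart f := ⟨_, rfl⟩
  obtain ⟨E, hEdef⟩ : ∃ E, E = evenPart f := ⟨_, rfl⟩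
  have hO : Loc 3 O := hOdef ▸ oddPart_loc f hdeg
  have hE : Loc 4 E := hEdef ▸ evenPart_loc f hdeg
  have hval : ∀ Y, (O Y = 1 ∧ E Y = 0) ∨ (O Y = -1 ∧ E Y = 0) ∨ (O Y = 0 ∧ E Y = 1)
      ∨ (O Y = 0 ∧ E Y = -1) := by
    intro Y
    simp only [hOdef, hEdef, oddPart, evenPart]
    rcases hf (ptY Y) with h1 | h1 <;> rcases hf (aptY Y) with h2 | h2 <;> rw [h1, h2] <;> norm_num
  have hOE : ∀ Y, |O Y| + |E Y| ≤ 1 := by
    intro Y
    rcases hval Y with h | h | h | h <;> rw [h.1, h.2] <;> norm_num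
  have hOE' : ∀ Y, |O Y| + |(fun Y => - E Y) Y| ≤ 1 := by
    intro Y
    rcases hval Y with h | h | h | h <;> simp only [h.1, h.2] <;> norm_num
  have hO0 : ∀ Y, |O Y| + |(fun _ : Finset (Fin n) => (0 : ℝ)) Y| ≤ 1 := by
    intro Y
    rcases hval Y with h | h | h | h <;> simp only [h.1] <;> norm_num
  have hS : 4 * levelOne f = 6 * O ∅ - ∑ i : Fin n, (O ∅ - O {i}) := hOdef ▸ simpson f hdeg
  obtain ⟨P, hP⟩ : ∃ P : Finset (Fin n), P = univ.filter (fun i => O {i} = 1) := ⟨_, rfl⟩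
  obtain ⟨Z, hZ⟩ : ∃ Z : Finset (Fin n), Z = univ.filter (fun i => O {i} = 0) := ⟨_, rfl⟩
  obtain ⟨Zp, hZp⟩ : ∃ Zp : Finset (Fin n), Zp = univ.filter (fun i => E {i} = 1) := ⟨_, rfl⟩
  obtain ⟨Zm, hZm⟩ : ∃ Zm : Finset (Fin n), Zm = univ.filter (fun i => E {i} = -1) := ⟨_, rfl⟩
  have hPmem : ∀ i ∈ P, O {i} = 1 := by
    intro i hi
    rw [hP] at hi
    exact (mem_filter.mp hi).2
  have hZmem : ∀ i ∈ Z, O {i} = 0 := by
    intro i hi
    rw [hZ] at hi
    exact (mem_filter.mp hi).2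
  have hZpmem : ∀ i ∈ Zp, O {i} = 0 ∧ E {i} = 1 := by
    intro i hi
    rw [hZp] at hi
    have h1 := (mem_filter.mp hi).2
    rcases hval {i} with h | h | h | h
    · rw [h.2] at h1; norm_num at h1
    · rw [h.2] at h1; norm_num at h1
    · exact h
    · rw [h.2] at h1; norm_num at h1
  have hZmmem : ∀ i ∈ Zm, O {i} = 0 ∧ E {i} = -1 := by
    intro i hi
    rw [hZm] at hi
    have h1 := (mem_filter.mp hi).2
    rcases hval {i} with h | h | h | h
    · rw [h.2] at h1; norm_num at h1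
    · rw [h.2] at h1; norm_num at h1
    · rw [h.2] at h1; norm_num at h1
    · exact h
  have hPZ : Disjoint P Z := by
    rw [Finset.disjoint_left]
    intro i hi hi'
    have := hPmem i hi
    rw [hZmem i hi'] at this
    norm_num at this
  have hZpm : Disjoint Zp Zm := by
    rw [Finset.disjoint_left]
    intro i hi hi'
    have := (hZpmem i hi).2
    rw [(hZmmem i hi').2] at this
    norm_num at this
  have hZcard : Z.card = Zp.card + Zm.card := by
    rw [← card_union_of_disjoint hZpm]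
    congr 1
    ext i
    rw [mem_union]
    constructor
    · intro hi
      have h0 := hZmem i hi
      rcases hval {i} with h | h | h | h
      · rw [h.1] at h0; norm_num at h0
      · rw [h.1] at h0; norm_num at h0
      · left; rw [hZp]; exact mem_filter.mpr ⟨mem_univ _, h.2⟩
      · right; rw [hZm]; exact mem_filter.mpr ⟨mem_univ _, h.2⟩
    · rintro (hi | hi)
      · rw [hZ]; exact mem_filter.mpr ⟨mem_univ _, (hZpmem i hi).1⟩
      · rw [hZ]; exact mem_filter.mpr ⟨mem_univ _, (hZmmem i hi).1⟩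
  have hPsum : ∑ i : Fin n, (if O {i} = 1 then (1 : ℝ) else 0) = P.card := by
    rw [hP, Finset.sum_boole]
  have hZsum : ∑ i : Fin n, (if O {i} = 0 then (1 : ℝ) else 0) = Z.card := by
    rw [hZ, Finset.sum_boole]
  have hbase : O ∅ = 1 ∨ O ∅ = 0 ∨ O ∅ = -1 := by
    rcases hval ∅ with h | h | h | h
    · exact Or.inl h.1
    · exact Or.inr (Or.inr h.1)
    · exact Or.inr (Or.inl h.1)
    · exact Or.inr (Or.inl h.1)
  rcases hbase with hb | hb | hb
  · -- base value one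
    have hnn : 0 ≤ ∑ i : Fin n, (O ∅ - O {i}) := by
      refine Finset.sum_nonneg fun i _ => ?_
      rw [hb]
      rcases hval {i} with h | h | h | h <;> rw [h.1] <;> norm_num
    rw [hb] at hS hnn
    linarith
  · -- base value zero
    have hle : - ∑ i : Fin n, (O ∅ - O {i}) ≤ P.card := by
      rw [← hPsum, ← Finset.sum_neg_distrib]
      refine Finset.sum_le_sum fun i _ => ?_
      rw [hb]
      rcases hval {i} with h | h | h | h <;> rw [h.1] <;> norm_num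
    have hno := cert_card cert_ii8 O (fun _ => 0) hO (loc_zero 4) hO0 P ∅ (disjoint_empty_right P)
      ⟨by rw [hb]; norm_num, by norm_num⟩
      (fun i hi => ⟨by rw [hPmem i hi]; norm_num, by norm_num⟩)
      (fun i hi => absurd hi (notMem_empty i))
    have hcard : P.card ≤ 7 := by
      by_contra hcon
      exact hno ⟨by omega, by omega⟩
    have hcard' : (P.card : ℝ) ≤ 7 := by exact_mod_cast hcard
    rw [hb] at hS hle
    linarith
  · -- base value minus one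
    have heq : - ∑ i : Fin n, (O ∅ - O {i}) = 2 * P.card + Z.card := by
      rw [← hPsum, ← hZsum, Finset.mul_sum, ← Finset.sum_add_distrib, ← Finset.sum_neg_distrib]
      refine Finset.sum_congr rfl fun i _ => ?_
      rw [hb]
      rcases hval {i} with h | h | h | h <;> rw [h.1] <;> norm_num
    have hb0 : O ∅ = ((-1 : ℤ) : ℝ) ∧ (fun _ : Finset (Fin n) => (0 : ℝ)) ∅ = ((0 : ℤ) : ℝ) :=
      ⟨by rw [hb]; norm_num, by norm_num⟩
    have hb1 : ∀ i ∈ P, O {i} = ((1 : ℤ) : ℝ)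
        ∧ (fun _ : Finset (Fin n) => (0 : ℝ)) {i} = ((0 : ℤ) : ℝ) :=
      fun i hi => ⟨by rw [hPmem i hi]; norm_num, by norm_num⟩
    have hb2 : ∀ i ∈ Z, O {i} = ((0 : ℤ) : ℝ)
        ∧ (fun _ : Finset (Fin n) => (0 : ℝ)) {i} = ((0 : ℤ) : ℝ) :=
      fun i hi => ⟨by rw [hZmem i hi]; norm_num, by norm_num⟩
    have n7 := cert_card cert_b7 O (fun _ => 0) hO (loc_zero 4) hO0 P Z hPZ hb0 hb1 hb2
    have n6 := cert_card cert_b6_1 O (fun _ => 0) hO (loc_zero 4) hO0 P Z hPZ hb0 hb1 hb2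
    have n5 := cert_card cert_b5_3 O (fun _ => 0) hO (loc_zero 4) hO0 P Z hPZ hb0 hb1 hb2
    have n4 := cert_card cert_b4_5 O (fun _ => 0) hO (loc_zero 4) hO0 P Z hPZ hb0 hb1 hb2
    have n3 := cert_card cert_b3_7 O (fun _ => 0) hO (loc_zero 4) hO0 P Z hPZ hb0 hb1 hb2
    have n2 := cert_card cert_b2_9 O (fun _ => 0) hO (loc_zero 4) hO0 P Z hPZ hb0 hb1 hb2
    have n1 := cert_card cert_b1_12 O (fun _ => 0) hO (loc_zero 4) hO0 P Z hPZ hb0 hb1 hb2
    have hE0 : E ∅ = 0 := by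
      rcases hval ∅ with h | h | h | h
      · exact h.2
      · exact h.2
      · rw [h.1] at hb; norm_num at hb
      · rw [h.1] at hb; norm_num at hb
    have he0 : O ∅ = ((-1 : ℤ) : ℝ) ∧ E ∅ = ((0 : ℤ) : ℝ) :=
      ⟨by rw [hb]; norm_num, by rw [hE0]; norm_num⟩
    have he1 : ∀ i ∈ Zp, O {i} = ((0 : ℤ) : ℝ) ∧ E {i} = ((1 : ℤ) : ℝ) :=
      fun i hi => ⟨by rw [(hZpmem i hi).1]; norm_num, by rw [(hZpmem i hi).2]; norm_num⟩
    have he2 : ∀ i ∈ Zm, O {i} = ((0 : ℤ) : ℝ) ∧ E {i} = ((-1 : ℤ) : ℝ) :=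
      fun i hi => ⟨by rw [(hZmmem i hi).1]; norm_num, by rw [(hZmmem i hi).2]; norm_num⟩
    have a1 := cert_card cert_e7_6 O E hO hE hOE Zp Zm hZpm he0 he1 he2
    have a2 := cert_card cert_e9_1 O E hO hE hOE Zp Zm hZpm he0 he1 he2
    have a3 := cert_card cert_e10_0 O E hO hE hOE Zp Zm hZpm he0 he1 he2
    have hf0 : O ∅ = ((-1 : ℤ) : ℝ) ∧ (fun Y => - E Y) ∅ = ((0 : ℤ) : ℝ) :=
      ⟨by rw [hb]; norm_num, by simp only [hE0]; norm_num⟩
    have hf1 : ∀ i ∈ Zm, O {i} = ((0 : ℤ) : ℝ) ∧ (fun Y => - E Y) {i} = ((1 : ℤ) : ℝ) :=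
      fun i hi => ⟨by rw [(hZmmem i hi).1]; norm_num, by simp only [(hZmmem i hi).2]; norm_num⟩
    have hf2 : ∀ i ∈ Zp, O {i} = ((0 : ℤ) : ℝ) ∧ (fun Y => - E Y) {i} = ((-1 : ℤ) : ℝ) :=
      fun i hi => ⟨by rw [(hZpmem i hi).1]; norm_num, by simp only [(hZpmem i hi).2]; norm_num⟩
    have c1 := cert_card cert_e7_6 O (fun Y => - E Y) hO hE.neg hOE' Zm Zp hZpm.symm hf0 hf1 hf2
    have c2 := cert_card cert_e9_1 O (fun Y => - E Y) hO hE.neg hOE' Zm Zp hZpm.symm hf0 hf1 hf2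
    have c3 := cert_card cert_e10_0 O (fun Y => - E Y) hO hE.neg hOE' Zm Zp hZpm.symm hf0 hf1 hf2
    have hcard : 2 * P.card + Z.card ≤ 13 := by
      omega
    have hcard' : 2 * (P.card : ℝ) + Z.card ≤ 13 := by exact_mod_cast hcard
    rw [hb] at hS heq
    linarith

end Vale.Agent.Lib.P047
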