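import Vale.Agent.Lib.P047.Cube

namespace Vale.Agent.Lib.P047

open Finset

/-- The cyclic function on seven bits: `+1` exactly when for some `s` in `Z/7` one has
`x_s = -1` and `x_{s+1} = x_{s+2} = x_{s+4} = +1`. -/
noncomputable def f7 (x : Fin 7 → Bool) : ℝ :=
  if ∃ s : Fin 7, x s = false ∧ x (s + 1) = true ∧ x (s + 2) = true ∧ x (s + 4) = true
  then 1 else -1

theorem f7_bool (x : Fin 7 → Bool) : f7 x = 1 ∨ f7 x = -1 := by
  unfold f7; split_ifs <;> simp

/-- the seven subcubes of codimension four -/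
def rho7 (s : Fin 7) : Fin 7 → Option Bool := fun i =>
  if i = s then some false else if i = s + 1 ∨ i = s + 2 ∨ i = s + 4 then some true else none

set_option maxRecDepth 100000 in
theorem f7_key0 : ∀ x0 x1 x2 x3 x4 x5 x6 : Bool,
    (if ∃ s : Fin 7, (![x0,x1,x2,x3,x4,x5,x6] : Fin 7 → Bool) s = false ∧
        (![x0,x1,x2,x3,x4,x5,x6] : Fin 7 → Bool) (s + 1) = true ∧
        (![x0,x1,x2,x3,x4,x5,x6] : Fin 7 → Bool) (s + 2) = true ∧
        (![x0,x1,x2,x3,x4,x5,x6] : Fin 7 → Bool) (s + 4) = true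
      then (1 : ℤ) else -1)
    = -1 + 2 * ∑ s : Fin 7,
        (if InCube (rho7 s) (![x0,x1,x2,x3,x4,x5,x6] : Fin 7 → Bool) then (1 : ℤ) else 0) := by
  decide

theorem f7_key1 (x : Fin 7 → Bool) :
    (if ∃ s : Fin 7, x s = false ∧ x (s + 1) = true ∧ x (s + 2) = true ∧ x (s + 4) = true
      then (1 : ℤ) else -1)
    = -1 + 2 * ∑ s : Fin 7, (if InCube (rho7 s) x then (1 : ℤ) else 0) := by
  have hx : x = ![x 0, x 1, x 2, x 3, x 4, x 5, x 6] := by
    funext i
    fin_cases i <;> rfl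
  have h := f7_key0 (x 0) (x 1) (x 2) (x 3) (x 4) (x 5) (x 6)
  rw [← hx] at h
  exact h

theorem f7_eq (x : Fin 7 → Bool) :
    f7 x = -1 + 2 * ∑ s : Fin 7, (if InCube (rho7 s) x then (1 : ℝ) else 0) := by
  have h := congrArg (fun z : ℤ => (z : ℝ)) (f7_key1 x)
  unfold f7
  push_cast at h
  exact h

theorem rho7_codim (s : Fin 7) : codim (rho7 s) = 4 := by
  revert s; decide

theorem rho7_fixedSum (s : Fin 7) : fixedSum (rho7 s) = 2 := by
  unfold fixedSum
  fin_cases s <;> simp [Fin.sum_univ_succ, rho7, val, sgn] <;> norm_num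

/-- the character of `S` -/
noncomputable def chi7 (S : Finset (Fin 7)) (x : Fin 7 → Bool) : ℝ := ∏ i ∈ S, sgn (x i)

theorem chi7_flip {S : Finset (Fin 7)} {j : Fin 7} (hj : j ∈ S) (x : Fin 7 → Bool) :
    chi7 S (flip j x) = - chi7 S x := by
  unfold chi7
  rw [← Finset.mul_prod_erase S _ hj, ← Finset.mul_prod_erase S (fun i => sgn (x i)) hj,
    flip_same, sgn_not]
  have : ∏ i ∈ S.erase j, sgn (flip j x i) = ∏ i ∈ S.erase j, sgn (x i) := by
    apply Finset.prod_congr rfl
    intro i hi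
    rw [flip_ne (Finset.ne_of_mem_erase hi)]
  rw [this]; ring

theorem sum_cube_chi7 {S : Finset (Fin 7)} {ρ : Fin 7 → Option Bool}
    (h : codim ρ < S.card) :
    ∑ x : Fin 7 → Bool, (if InCube ρ x then chi7 S x else 0) = 0 := by
  have : ∃ j ∈ S, ρ j = none := by
    by_contra hcon
    push Not at hcon
    have hsub : S ⊆ Finset.univ.filter (fun i => ρ i ≠ none) := by
      intro j hj
      simp only [Finset.mem_filter, Finset.mem_univ, true_and]
      exact hcon j hj
    have := Finset.card_le_card hsub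
    unfold codim at h
    omega
  obtain ⟨j, hjS, hj⟩ := this
  exact sum_cube_odd hj _ (chi7_flip hjS)

theorem sum_chi7 {S : Finset (Fin 7)} (h : 0 < S.card) :
    ∑ x : Fin 7 → Bool, chi7 S x = 0 := by
  have h0 : codim (fun _ : Fin 7 => (none : Option Bool)) < S.card := by
    simpa [codim] using h
  have h2 := sum_cube_chi7 h0
  have h1 : ∀ x : Fin 7 → Bool, InCube (fun _ : Fin 7 => (none : Option Bool)) x :=
    fun x i => Or.inl rfl
  simpa only [h1, if_true] using h2

theorem f7_mul (F : (Fin 7 → Bool) → ℝ) :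
    ∑ x : Fin 7 → Bool, f7 x * F x
      = - ∑ x : Fin 7 → Bool, F x
        + 2 * ∑ s : Fin 7, ∑ x : Fin 7 → Bool, (if InCube (rho7 s) x then F x else 0) := by
  rw [Finset.sum_comm, Finset.mul_sum, ← Finset.sum_neg_distrib, ← Finset.sum_add_distrib]
  apply Finset.sum_congr rfl
  intro x _
  rw [f7_eq, add_mul, mul_assoc, Finset.sum_mul]
  congr 2
  · ring
  · apply Finset.sum_congr rfl
    intro s _
    by_cases h : InCube (rho7 s) x <;> simp [h]

theorem f7_deg (S : Finset (Fin 7)) (hS : 4 < S.card) : fourier f7 S = 0 := by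
  unfold fourier
  have h := f7_mul (chi7 S)
  unfold chi7 at h
  rw [h]
  have h1 := sum_chi7 (S := S) (by omega)
  unfold chi7 at h1
  rw [h1]
  have h2 : ∀ s : Fin 7,
      ∑ x : Fin 7 → Bool, (if InCube (rho7 s) x then ∏ i ∈ S, sgn (x i) else 0) = 0 := by
    intro s
    have := sum_cube_chi7 (S := S) (ρ := rho7 s) (by rw [rho7_codim]; exact hS)
    unfold chi7 at this
    exact this
  simp [h2]

theorem f7_levelOne : levelOne f7 = 7 / 4 := by
  rw [levelOne_eq, f7_mul, sum_tot]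
  simp_rw [sum_cube_tot, rho7_fixedSum, vol_eq, rho7_codim]
  simp
  norm_num

end Vale.Agent.Lib.P047
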