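import Mathlib

namespace Vale.Agent.Lib.P047

open Finset

/-- `G` is a polynomial of degree at most `D` in the indicator variables of its set argument:
`G Y = ∑_{R ⊆ Y} c R` with `c R = 0` as soon as `|R| > D`. -/
def Loc {α : Type*} (D : ℕ) (G : Finset α → ℝ) : Prop :=
  ∃ c : Finset α → ℝ, (∀ R, D < R.card → c R = 0) ∧ ∀ Y, G Y = ∑ R ∈ Y.powerset, c R

lemma loc_zero {α : Type*} (D : ℕ) : Loc D (fun _ : Finset α => (0 : ℝ)) :=
  ⟨fun _ => 0, fun _ _ => rfl, fun _ => by simp⟩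

lemma Loc.neg {α : Type*} {D : ℕ} {G : Finset α → ℝ} (h : Loc D G) : Loc D (fun Y => - G Y) := by
  obtain ⟨c, hc, hG⟩ := h
  refine ⟨fun R => - c R, fun R hR => by simp [hc R hR], fun Y => ?_⟩
  show - G Y = ∑ R ∈ Y.powerset, - c R
  rw [hG Y, Finset.sum_neg_distrib]

/-- Sum of a function of the cardinality over the sets between `R` and `A`. -/
lemma sum_superset_card {α : Type*} [DecidableEq α] (A R : Finset α) (hR : R ⊆ A) (g : ℕ → ℝ) :
    ∑ Y ∈ A.powerset, (if R ⊆ Y then g Y.card else 0)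
      = ∑ t ∈ range (A.card - R.card + 1), ((A.card - R.card).choose t : ℝ) * g (R.card + t) := by
  have h1 : ∑ Y ∈ A.powerset, (if R ⊆ Y then g Y.card else 0)
      = ∑ T ∈ (A \ R).powerset, g (R.card + T.card) := by
    rw [← Finset.sum_filter]
    symm
    refine Finset.sum_bij' (fun T _ => R ∪ T) (fun Y _ => Y \ R) ?_ ?_ ?_ ?_ ?_
    · intro T hT
      rw [mem_powerset] at hT
      simp only [mem_filter, mem_powerset]
      exact ⟨union_subset hR (hT.trans sdiff_subset), subset_union_left⟩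
    · intro Y hY
      simp only [mem_filter, mem_powerset] at hY
      rw [mem_powerset]
      exact sdiff_subset_sdiff hY.1 (subset_refl R)
    · intro T hT
      rw [mem_powerset] at hT
      have hd : Disjoint T R := by
        exact disjoint_of_subset_left hT sdiff_disjoint
      rw [union_sdiff_cancel_left hd.symm]
    · intro Y hY
      simp only [mem_filter, mem_powerset] at hY
      exact union_sdiff_of_subset hY.2
    · intro T hT
      rw [mem_powerset] at hT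
      have hd : Disjoint R T := (disjoint_of_subset_left hT sdiff_disjoint).symm
      rw [card_union_of_disjoint hd]
  rw [h1, Finset.sum_powerset_apply_card (fun t => g (R.card + t)), card_sdiff_of_subset hR]
  simp [nsmul_eq_mul]

/-- The weighted count attached to a monomial of bidegree `(r1, r2)`. -/
def Zs {K : Type*} [CommRing K] (m1 m2 : ℕ) (w : ℕ → ℕ → K) (r1 r2 : ℕ) : K :=
  ∑ t1 ∈ range (m1 - r1 + 1), ∑ t2 ∈ range (m2 - r2 + 1),
    (((m1 - r1).choose t1 * (m2 - r2).choose t2 : ℕ) : K) * w (r1 + t1) (r2 + t2)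

lemma Zs_cast (m1 m2 : ℕ) (w : ℕ → ℕ → ℤ) (r1 r2 : ℕ) :
    ((Zs m1 m2 w r1 r2 : ℤ) : ℝ) = Zs m1 m2 (fun j k => (w j k : ℝ)) r1 r2 := by
  simp [Zs]

lemma sum_superset_card2 {α : Type*} [DecidableEq α] (A B R1 R2 : Finset α) (h1 : R1 ⊆ A)
    (h2 : R2 ⊆ B) (w : ℕ → ℕ → ℝ) :
    ∑ Y1 ∈ A.powerset, ∑ Y2 ∈ B.powerset, (if R1 ⊆ Y1 ∧ R2 ⊆ Y2 then w Y1.card Y2.card else 0)
      = Zs A.card B.card w R1.card R2.card := by
  have e1 : ∀ Y1 ∈ A.powerset, ∑ Y2 ∈ B.powerset,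
      (if R1 ⊆ Y1 ∧ R2 ⊆ Y2 then w Y1.card Y2.card else 0)
      = if R1 ⊆ Y1 then (fun j => ∑ t2 ∈ range (B.card - R2.card + 1),
          ((B.card - R2.card).choose t2 : ℝ) * w j (R2.card + t2)) Y1.card else 0 := by
    intro Y1 _
    by_cases h : R1 ⊆ Y1
    · simp only [h, true_and, if_true]
      exact sum_superset_card B R2 h2 (fun k => w Y1.card k)
    · simp [h]
  rw [Finset.sum_congr rfl e1, sum_superset_card A R1 h1 (fun j => ∑ t2 ∈ range (B.card - R2.card + 1),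
          ((B.card - R2.card).choose t2 : ℝ) * w j (R2.card + t2))]
  unfold Zs
  refine Finset.sum_congr rfl fun t1 _ => ?_
  rw [Finset.mul_sum]
  refine Finset.sum_congr rfl fun t2 _ => ?_
  push_cast
  ring

/-- A weight table that kills all monomials of total degree at most `D` kills every
`D`-local function. -/
theorem annih {α : Type*} [DecidableEq α] {D : ℕ} {G : Finset α → ℝ} (hG : Loc D G)
    (A B : Finset α) (hAB : Disjoint A B) (w : ℕ → ℕ → ℝ)
    (hw : ∀ r1 ≤ A.card, ∀ r2 ≤ B.card, r1 + r2 ≤ D → Zs A.card B.card w r1 r2 = 0) :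
    ∑ Y1 ∈ A.powerset, ∑ Y2 ∈ B.powerset, w Y1.card Y2.card * G (Y1 ∪ Y2) = 0 := by
  obtain ⟨c, hc, hG⟩ := hG
  have h1 : ∀ Y1 ∈ A.powerset, ∀ Y2 ∈ B.powerset, G (Y1 ∪ Y2)
      = ∑ R ∈ (A ∪ B).powerset, if (R ∩ A ⊆ Y1 ∧ R ∩ B ⊆ Y2) then c R else 0 := by
    intro Y1 hY1 Y2 hY2
    rw [mem_powerset] at hY1 hY2
    rw [hG, ← Finset.sum_filter]
    refine Finset.sum_congr ?_ fun _ _ => rfl
    ext R
    simp only [mem_powerset, mem_filter]
    constructor
    · intro hR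
      refine ⟨hR.trans (union_subset_union hY1 hY2), ?_, ?_⟩
      · intro x hx
        rw [mem_inter] at hx
        rcases mem_union.mp (hR hx.1) with h | h
        · exact h
        · exact absurd (hY2 h) (Finset.disjoint_left.mp hAB hx.2)
      · intro x hx
        rw [mem_inter] at hx
        rcases mem_union.mp (hR hx.1) with h | h
        · exact absurd hx.2 (Finset.disjoint_left.mp hAB (hY1 h))
        · exact h
    · rintro ⟨hR, hA, hB⟩ x hx
      rcases mem_union.mp (hR hx) with h | h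
      · exact mem_union_left _ (hA (mem_inter.mpr ⟨hx, h⟩))
      · exact mem_union_right _ (hB (mem_inter.mpr ⟨hx, h⟩))
  have h2 : ∑ Y1 ∈ A.powerset, ∑ Y2 ∈ B.powerset, w Y1.card Y2.card * G (Y1 ∪ Y2)
      = ∑ R ∈ (A ∪ B).powerset, c R * ∑ Y1 ∈ A.powerset, ∑ Y2 ∈ B.powerset,
          (if (R ∩ A ⊆ Y1 ∧ R ∩ B ⊆ Y2) then w Y1.card Y2.card else 0) := by
    have : ∀ Y1 ∈ A.powerset, ∑ Y2 ∈ B.powerset, w Y1.card Y2.card * G (Y1 ∪ Y2)
        = ∑ R ∈ (A ∪ B).powerset, ∑ Y2 ∈ B.powerset,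
          c R * (if (R ∩ A ⊆ Y1 ∧ R ∩ B ⊆ Y2) then w Y1.card Y2.card else 0) := by
      intro Y1 hY1
      rw [Finset.sum_comm]
      refine Finset.sum_congr rfl fun Y2 hY2 => ?_
      rw [h1 Y1 hY1 Y2 hY2, Finset.mul_sum]
      refine Finset.sum_congr rfl fun R _ => ?_
      split_ifs <;> ring
    rw [Finset.sum_congr rfl this, Finset.sum_comm]
    refine Finset.sum_congr rfl fun R _ => ?_
    rw [Finset.mul_sum]
    refine Finset.sum_congr rfl fun Y1 _ => ?_
    rw [Finset.mul_sum]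
  rw [h2]
  refine Finset.sum_eq_zero fun R hR => ?_
  rw [mem_powerset] at hR
  rw [sum_superset_card2 A B (R ∩ A) (R ∩ B) inter_subset_right inter_subset_right w]
  have hcard : (R ∩ A).card + (R ∩ B).card = R.card := by
    rw [← card_union_of_disjoint, ← inter_union_distrib_left, inter_eq_left.mpr hR]
    exact disjoint_of_subset_left inter_subset_right
      (disjoint_of_subset_right inter_subset_right hAB)
  by_cases hD : D < R.card
  · rw [hc R hD, zero_mul]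
  · rw [hw _ (card_le_card inter_subset_right) _ (card_le_card inter_subset_right) (by omega),
      mul_zero]

/-- Known values near the base point: type `(0,0)` has value `a0`, type `(1,0)` has value `a1`,
type `(0,1)` has value `a2`. -/
def kn (a0 a1 a2 : ℤ) (j k : ℕ) : ℤ := if j = 1 then a1 else if k = 1 then a2 else a0

/-- Lower bound for the contribution `u * O + v * E` of a point of type `(j,k)`. -/
def low (u v o e : ℕ → ℕ → ℤ) (j k : ℕ) : ℤ :=
  if j + k ≤ 1 then u j k * o j k + v j k * e j k else - max |u j k| |v j k|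

/-- The three numerical conditions making `(u, v)` a certificate of infeasibility. -/
def CertOK (m1 m2 : ℕ) (u v : ℕ → ℕ → ℤ) (o0 e0 o1 e1 o2 e2 : ℤ) : Prop :=
  (∀ r1 ≤ m1, ∀ r2 ≤ m2, r1 + r2 ≤ 3 → Zs m1 m2 u r1 r2 = 0) ∧
  (∀ r1 ≤ m1, ∀ r2 ≤ m2, r1 + r2 ≤ 4 → Zs m1 m2 v r1 r2 = 0) ∧
  0 < ∑ j ∈ range (m1 + 1), ∑ k ∈ range (m2 + 1),
    ((m1.choose j * m2.choose k : ℕ) : ℤ) * low u v (kn o0 o1 o2) (kn e0 e1 e2) j k

instance (m1 m2 : ℕ) (u v : ℕ → ℕ → ℤ) (o0 e0 o1 e1 o2 e2 : ℤ) :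
    Decidable (CertOK m1 m2 u v o0 e0 o1 e1 o2 e2) := by
  unfold CertOK; infer_instance

lemma sum_powerset_card2 {α : Type*} (A B : Finset α) (g : ℕ → ℕ → ℝ) :
    ∑ Y1 ∈ A.powerset, ∑ Y2 ∈ B.powerset, g Y1.card Y2.card
      = ∑ j ∈ range (A.card + 1), ∑ k ∈ range (B.card + 1),
        ((A.card.choose j * B.card.choose k : ℕ) : ℝ) * g j k := by
  have e1 : ∀ Y1 ∈ A.powerset, ∑ Y2 ∈ B.powerset, g Y1.card Y2.card
      = (fun j => ∑ k ∈ range (B.card + 1), (B.card.choose k : ℝ) * g j k) Y1.card := by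
    intro Y1 _
    rw [Finset.sum_powerset_apply_card (fun k => g Y1.card k)]
    simp [nsmul_eq_mul]
  rw [Finset.sum_congr rfl e1, Finset.sum_powerset_apply_card
    (fun j => ∑ k ∈ range (B.card + 1), (B.card.choose k : ℝ) * g j k)]
  refine Finset.sum_congr rfl fun j _ => ?_
  rw [nsmul_eq_mul, Finset.mul_sum]
  refine Finset.sum_congr rfl fun k _ => ?_
  push_cast
  ring

lemma low_le (u v : ℝ) (x y : ℝ) (h : |x| + |y| ≤ 1) : - max |u| |v| ≤ u * x + v * y := by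
  have h1 : |u * x + v * y| ≤ max |u| |v| := by
    calc |u * x + v * y| ≤ |u * x| + |v * y| := abs_add_le _ _
      _ = |u| * |x| + |v| * |y| := by rw [abs_mul, abs_mul]
      _ ≤ max |u| |v| * |x| + max |u| |v| * |y| := by
          gcongr
          · exact le_max_left _ _
          · exact le_max_right _ _
      _ = max |u| |v| * (|x| + |y|) := by ring
      _ ≤ max |u| |v| * 1 := by
          gcongr
      _ = max |u| |v| := mul_one _
  exact (abs_le.mp h1).1

/-- A certificate excludes the configuration: `O` cubic, `E` quartic, `|O| + |E| ≤ 1`, prescribed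
values at the base point and at the singletons of two disjoint sets of sizes `m1`, `m2`. -/
theorem cert_contra {α : Type*} [DecidableEq α] {m1 m2 : ℕ} {u v : ℕ → ℕ → ℤ}
    {o0 e0 o1 e1 o2 e2 : ℤ} (hc : CertOK m1 m2 u v o0 e0 o1 e1 o2 e2)
    (O E : Finset α → ℝ) (hO : Loc 3 O) (hE : Loc 4 E) (hOE : ∀ Y, |O Y| + |E Y| ≤ 1)
    (A B : Finset α) (hAB : Disjoint A B) (hA : A.card = m1) (hB : B.card = m2)
    (h0 : O ∅ = o0 ∧ E ∅ = e0) (h1 : ∀ i ∈ A, O {i} = o1 ∧ E {i} = e1)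
    (h2 : ∀ i ∈ B, O {i} = o2 ∧ E {i} = e2) : False := by
  obtain ⟨hu, hv, hpos⟩ := hc
  subst hA hB
  have hsO := annih hO A B hAB (fun j k => (u j k : ℝ)) (by
    intro r1 hr1 r2 hr2 hr
    rw [← Zs_cast, hu r1 hr1 r2 hr2 hr, Int.cast_zero])
  have hsE := annih hE A B hAB (fun j k => (v j k : ℝ)) (by
    intro r1 hr1 r2 hr2 hr
    rw [← Zs_cast, hv r1 hr1 r2 hr2 hr, Int.cast_zero])
  have hlow : ∀ Y1 ∈ A.powerset, ∀ Y2 ∈ B.powerset,
      ((low u v (kn o0 o1 o2) (kn e0 e1 e2) Y1.card Y2.card : ℤ) : ℝ)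
        ≤ (u Y1.card Y2.card : ℝ) * O (Y1 ∪ Y2) + (v Y1.card Y2.card : ℝ) * E (Y1 ∪ Y2) := by
    intro Y1 hY1 Y2 hY2
    rw [mem_powerset] at hY1 hY2
    unfold low
    split_ifs with hjk
    · have hcases : (Y1.card = 0 ∧ Y2.card = 0) ∨ (Y1.card = 1 ∧ Y2.card = 0)
          ∨ (Y1.card = 0 ∧ Y2.card = 1) := by omega
      rcases hcases with ⟨ha, hb⟩ | ⟨ha, hb⟩ | ⟨ha, hb⟩
      · rw [ha, hb]
        rw [card_eq_zero] at ha hb
        subst ha hb
        simp [kn, h0.1, h0.2]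
      · rw [ha, hb]
        rw [card_eq_zero] at hb
        obtain ⟨i, rfl⟩ := card_eq_one.mp ha
        subst hb
        have hi := h1 i (hY1 (mem_singleton_self i))
        simp [kn, hi.1, hi.2]
      · rw [ha, hb]
        rw [card_eq_zero] at ha
        obtain ⟨i, rfl⟩ := card_eq_one.mp hb
        subst ha
        have hi := h2 i (hY2 (mem_singleton_self i))
        simp [kn, hi.1, hi.2]
    · push_cast
      exact low_le _ _ _ _ (hOE _)
  have hsum : ∑ Y1 ∈ A.powerset, ∑ Y2 ∈ B.powerset,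
      ((low u v (kn o0 o1 o2) (kn e0 e1 e2) Y1.card Y2.card : ℤ) : ℝ) ≤ 0 := by
    calc _ ≤ ∑ Y1 ∈ A.powerset, ∑ Y2 ∈ B.powerset,
        ((u Y1.card Y2.card : ℝ) * O (Y1 ∪ Y2) + (v Y1.card Y2.card : ℝ) * E (Y1 ∪ Y2)) :=
          Finset.sum_le_sum fun Y1 hY1 => Finset.sum_le_sum fun Y2 hY2 => hlow Y1 hY1 Y2 hY2
      _ = 0 := by
          simp only [Finset.sum_add_distrib]
          rw [hsO, hsE, add_zero]
  rw [sum_powerset_card2 A B
    (fun j k => ((low u v (kn o0 o1 o2) (kn e0 e1 e2) j k : ℤ) : ℝ))] at hsum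
  have hpos' : (0 : ℝ) < ((∑ j ∈ range (A.card + 1), ∑ k ∈ range (B.card + 1),
    ((A.card.choose j * B.card.choose k : ℕ) : ℤ) * low u v (kn o0 o1 o2) (kn e0 e1 e2) j k : ℤ) : ℝ) := by
    exact_mod_cast hpos
  push_cast at hpos' hsum
  linarith

/-- Cardinality form: the two sets of prescribed neighbours cannot both be large. -/
theorem cert_card {α : Type*} [DecidableEq α] {m1 m2 : ℕ} {u v : ℕ → ℕ → ℤ}
    {o0 e0 o1 e1 o2 e2 : ℤ} (hc : CertOK m1 m2 u v o0 e0 o1 e1 o2 e2)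
    (O E : Finset α → ℝ) (hO : Loc 3 O) (hE : Loc 4 E) (hOE : ∀ Y, |O Y| + |E Y| ≤ 1)
    (P Q : Finset α) (hPQ : Disjoint P Q)
    (h0 : O ∅ = o0 ∧ E ∅ = e0) (h1 : ∀ i ∈ P, O {i} = o1 ∧ E {i} = e1)
    (h2 : ∀ i ∈ Q, O {i} = o2 ∧ E {i} = e2) : ¬ (m1 ≤ P.card ∧ m2 ≤ Q.card) := by
  rintro ⟨hP, hQ⟩
  obtain ⟨A, hAP, hA⟩ := exists_subset_card_eq hP
  obtain ⟨B, hBQ, hB⟩ := exists_subset_card_eq hQ
  exact cert_contra hc O E hO hE hOE A B
    (disjoint_of_subset_left hAP (disjoint_of_subset_right hBQ hPQ)) hA hB h0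
    (fun i hi => h1 i (hAP hi)) (fun i hi => h2 i (hBQ hi))

/-- A table given by a list of rows. -/
def tb (l : List (List ℤ)) (j k : ℕ) : ℤ := (l.getD j []).getD k 0

end Vale.Agent.Lib.P047
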