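import Vale.Agent.Lib.P047.Cube
import Vale.Agent.Lib.P047.Local

namespace Vale.Agent.Lib.P047

open Finset

/-- The all-plus point with the coordinates in `Y` flipped to minus. -/
def ptY {n : ℕ} (Y : Finset (Fin n)) : Fin n → Bool := fun i => decide (i ∉ Y)

/-- The antipode of `ptY Y`. -/
def aptY {n : ℕ} (Y : Finset (Fin n)) : Fin n → Bool := fun i => decide (i ∈ Y)

/-- Odd part of `f` at `ptY Y`. -/
noncomputable def oddPart {n : ℕ} (f : (Fin n → Bool) → ℝ) (Y : Finset (Fin n)) : ℝ :=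
  (f (ptY Y) - f (aptY Y)) / 2

/-- Even part of `f` at `ptY Y`. -/
noncomputable def evenPart {n : ℕ} (f : (Fin n → Bool) → ℝ) (Y : Finset (Fin n)) : ℝ :=
  (f (ptY Y) + f (aptY Y)) / 2

lemma prod_one_add_sgn {n : ℕ} (x y : Fin n → Bool) :
    ∏ i, (1 + sgn (y i) * sgn (x i)) = if y = x then (2 : ℝ) ^ n else 0 := by
  by_cases h : y = x
  · subst h
    simp [sgn_sq]
    norm_num
  · rw [if_neg h]
    have : ∃ i, y i ≠ x i := by
      by_contra hc
      push Not at hc
      exact h (funext hc)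
    obtain ⟨i, hi⟩ := this
    apply Finset.prod_eq_zero (Finset.mem_univ i)
    revert hi
    cases y i <;> cases x i <;> simp [sgn]

theorem fourier_inversion {n : ℕ} (f : (Fin n → Bool) → ℝ) (x : Fin n → Bool) :
    f x = ∑ S : Finset (Fin n), fourier f S * ∏ i ∈ S, sgn (x i) := by
  have h1 : ∀ S : Finset (Fin n), fourier f S * ∏ i ∈ S, sgn (x i)
      = ∑ y : Fin n → Bool, f y / 2 ^ n * ∏ i ∈ S, (sgn (y i) * sgn (x i)) := by
    intro S
    unfold fourier
    rw [Finset.sum_div, Finset.sum_mul]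
    apply Finset.sum_congr rfl
    intro y _
    rw [Finset.prod_mul_distrib]
    ring
  simp_rw [h1]
  rw [Finset.sum_comm]
  simp_rw [← Finset.mul_sum]
  have h2 : ∀ y : Fin n → Bool, ∑ S : Finset (Fin n), ∏ i ∈ S, (sgn (y i) * sgn (x i))
      = if y = x then (2 : ℝ) ^ n else 0 := by
    intro y
    rw [← prod_one_add_sgn, Finset.prod_one_add, Finset.powerset_univ]
  simp_rw [h2]
  simp

lemma sgn_ptY {n : ℕ} (Y : Finset (Fin n)) (i : Fin n) :
    sgn (ptY Y i) = 1 + (if i ∈ Y then (-2 : ℝ) else 0) := by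
  by_cases h : i ∈ Y
  · simp [ptY, sgn, h]; norm_num
  · simp [ptY, sgn, h]

lemma sgn_aptY {n : ℕ} (Y : Finset (Fin n)) (i : Fin n) :
    sgn (aptY Y i) = - sgn (ptY Y i) := by
  by_cases h : i ∈ Y
  · simp [ptY, aptY, sgn, h]
  · simp [ptY, aptY, sgn, h]

lemma prod_ite_mem {n : ℕ} (Y R : Finset (Fin n)) :
    ∏ i ∈ R, (if i ∈ Y then (-2 : ℝ) else 0) = if R ⊆ Y then (-2 : ℝ) ^ R.card else 0 := by
  by_cases h : R ⊆ Y
  · rw [if_pos h]
    rw [Finset.prod_congr rfl (fun i hi => if_pos (h hi))]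
    simp
  · rw [if_neg h]
    rw [Finset.not_subset] at h
    obtain ⟨i, hi, hiY⟩ := h
    apply Finset.prod_eq_zero hi
    rw [if_neg hiY]

theorem loc_of_coeff {n : ℕ} (a : Finset (Fin n) → ℝ) (D : ℕ) (ha : ∀ S, D < S.card → a S = 0) :
    Loc D (fun Y => ∑ S : Finset (Fin n), a S * ∏ i ∈ S, sgn (ptY Y i)) := by
  refine ⟨fun R => (-2 : ℝ) ^ R.card * ∑ S : Finset (Fin n), (if R ⊆ S then a S else 0), ?_, ?_⟩
  · intro R hR
    have : ∑ S : Finset (Fin n), (if R ⊆ S then a S else 0) = 0 := by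
      apply Finset.sum_eq_zero
      intro S _
      by_cases h : R ⊆ S
      · rw [if_pos h]
        exact ha S (lt_of_lt_of_le hR (Finset.card_le_card h))
      · rw [if_neg h]
    simp only [this, mul_zero]
  · intro Y
    have h1 : ∀ S : Finset (Fin n), a S * ∏ i ∈ S, sgn (ptY Y i)
        = ∑ R : Finset (Fin n),
          (if R ⊆ Y then (-2 : ℝ) ^ R.card * (if R ⊆ S then a S else 0) else 0) := by
      intro S
      simp_rw [sgn_ptY]
      rw [Finset.prod_one_add, Finset.mul_sum]
      simp_rw [prod_ite_mem]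
      rw [← Finset.sum_subset (Finset.subset_univ S.powerset)]
      · apply Finset.sum_congr rfl
        intro R hR
        rw [Finset.mem_powerset] at hR
        rw [if_pos hR]
        by_cases hY : R ⊆ Y
        · rw [if_pos hY, if_pos hY]; ring
        · rw [if_neg hY, if_neg hY]; ring
      · intro R _ hR
        rw [Finset.mem_powerset] at hR
        rw [if_neg hR]
        simp
    show ∑ S : Finset (Fin n), a S * ∏ i ∈ S, sgn (ptY Y i) = _
    simp_rw [h1]
    rw [Finset.sum_comm]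
    rw [← Finset.sum_subset (Finset.subset_univ Y.powerset)]
    · apply Finset.sum_congr rfl
      intro R hR
      rw [Finset.mem_powerset] at hR
      simp_rw [if_pos hR]
      rw [Finset.mul_sum]
    · intro R _ hR
      rw [Finset.mem_powerset] at hR
      simp_rw [if_neg hR]
      simp

lemma prod_sgn_aptY {n : ℕ} (Y S : Finset (Fin n)) :
    ∏ i ∈ S, sgn (aptY Y i) = (-1 : ℝ) ^ S.card * ∏ i ∈ S, sgn (ptY Y i) := by
  simp_rw [sgn_aptY]
  rw [Finset.prod_neg]

lemma oddPart_eq {n : ℕ} (f : (Fin n → Bool) → ℝ) (Y : Finset (Fin n)) :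
    oddPart f Y = ∑ S : Finset (Fin n),
      (fourier f S * ((1 - (-1 : ℝ) ^ S.card) / 2)) * ∏ i ∈ S, sgn (ptY Y i) := by
  unfold oddPart
  rw [fourier_inversion f (ptY Y), fourier_inversion f (aptY Y), ← Finset.sum_sub_distrib,
    Finset.sum_div]
  apply Finset.sum_congr rfl
  intro S _
  rw [prod_sgn_aptY]
  ring

lemma evenPart_eq {n : ℕ} (f : (Fin n → Bool) → ℝ) (Y : Finset (Fin n)) :
    evenPart f Y = ∑ S : Finset (Fin n),
      (fourier f S * ((1 + (-1 : ℝ) ^ S.card) / 2)) * ∏ i ∈ S, sgn (ptY Y i) := by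
  unfold evenPart
  rw [fourier_inversion f (ptY Y), fourier_inversion f (aptY Y), ← Finset.sum_add_distrib,
    Finset.sum_div]
  apply Finset.sum_congr rfl
  intro S _
  rw [prod_sgn_aptY]
  ring

theorem oddPart_loc {n : ℕ} (f : (Fin n → Bool) → ℝ) (hdeg : ∀ S, 4 < S.card → fourier f S = 0) :
    Loc 3 (oddPart f) := by
  have h := loc_of_coeff (fun S : Finset (Fin n) => fourier f S * ((1 - (-1 : ℝ) ^ S.card) / 2)) 3
    (by
      intro S hS
      rcases Nat.lt_or_ge 4 S.card with h4 | h4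
      · simp only [hdeg S h4, zero_mul]
      · have : S.card = 4 := by omega
        simp only [this]
        norm_num)
  have e : oddPart f = fun Y => ∑ S : Finset (Fin n),
      (fourier f S * ((1 - (-1 : ℝ) ^ S.card) / 2)) * ∏ i ∈ S, sgn (ptY Y i) := by
    funext Y
    exact oddPart_eq f Y
  rw [e]
  exact h

theorem evenPart_loc {n : ℕ} (f : (Fin n → Bool) → ℝ) (hdeg : ∀ S, 4 < S.card → fourier f S = 0) :
    Loc 4 (evenPart f) := by
  have h := loc_of_coeff (fun S : Finset (Fin n) => fourier f S * ((1 + (-1 : ℝ) ^ S.card) / 2)) 4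
    (by
      intro S hS
      simp only [hdeg S hS, zero_mul])
  have e : evenPart f = fun Y => ∑ S : Finset (Fin n),
      (fourier f S * ((1 + (-1 : ℝ) ^ S.card) / 2)) * ∏ i ∈ S, sgn (ptY Y i) := by
    funext Y
    exact evenPart_eq f Y
  rw [e]
  exact h

lemma prod_sgn_empty {n : ℕ} (S : Finset (Fin n)) : ∏ i ∈ S, sgn (ptY ∅ i) = 1 := by
  apply Finset.prod_eq_one
  intro i _
  simp [ptY, sgn]

lemma prod_sgn_single {n : ℕ} (S : Finset (Fin n)) (j : Fin n) :
    ∏ i ∈ S, sgn (ptY {j} i) = if j ∈ S then -1 else 1 := by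
  by_cases h : j ∈ S
  · rw [if_pos h, Finset.prod_eq_single_of_mem j h]
    · simp [ptY, sgn]
    · intro i _ hij
      simp [ptY, sgn, hij]
  · rw [if_neg h]
    apply Finset.prod_eq_one
    intro i hi
    have : i ≠ j := fun e => h (e ▸ hi)
    simp [ptY, sgn, this]

theorem simpson {n : ℕ} (f : (Fin n → Bool) → ℝ) (hdeg : ∀ S, 4 < S.card → fourier f S = 0) :
    4 * levelOne f = 6 * oddPart f ∅ - ∑ i : Fin n, (oddPart f ∅ - oddPart f {i}) := by
  set a : Finset (Fin n) → ℝ := fun S => fourier f S * ((1 - (-1 : ℝ) ^ S.card) / 2) with ha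
  have h0 : oddPart f ∅ = ∑ S : Finset (Fin n), a S := by
    rw [oddPart_eq]
    apply Finset.sum_congr rfl
    intro S _
    rw [prod_sgn_empty, mul_one]
  have h1 : ∀ j : Fin n, oddPart f ∅ - oddPart f {j}
      = ∑ S : Finset (Fin n), a S * (if j ∈ S then 2 else 0) := by
    intro j
    rw [h0, oddPart_eq, ← Finset.sum_sub_distrib]
    apply Finset.sum_congr rfl
    intro S _
    rw [prod_sgn_single]
    by_cases h : j ∈ S
    · simp only [if_pos h, ha]; ring
    · simp only [if_neg h, ha]; ring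
  have h2 : ∑ j : Fin n, (oddPart f ∅ - oddPart f {j})
      = ∑ S : Finset (Fin n), a S * (2 * S.card) := by
    simp_rw [h1]
    rw [Finset.sum_comm]
    apply Finset.sum_congr rfl
    intro S _
    rw [← Finset.mul_sum]
    congr 1
    rw [← Finset.sum_filter]
    simp
    ring
  rw [h2, h0, Finset.mul_sum, ← Finset.sum_sub_distrib]
  have h3 : ∀ S : Finset (Fin n), 6 * a S - a S * (2 * S.card)
      = if S.card = 1 then 4 * fourier f S else 0 := by
    intro S
    rcases Nat.lt_or_ge 4 S.card with h4 | h4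
    · have : S.card ≠ 1 := by omega
      rw [if_neg this]
      simp only [ha, hdeg S h4]
      ring
    · have : S.card = 0 ∨ S.card = 1 ∨ S.card = 2 ∨ S.card = 3 ∨ S.card = 4 := by omega
      rcases this with h | h | h | h | h <;> simp only [ha, h] <;> norm_num <;> ring
  simp_rw [h3]
  rw [← Finset.sum_filter]
  have h4 : (Finset.univ.filter (fun S : Finset (Fin n) => S.card = 1))
      = Finset.univ.map ⟨fun i : Fin n => ({i} : Finset (Fin n)), Finset.singleton_injective⟩ := by
    ext S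
    simp only [Finset.mem_filter, Finset.mem_univ, true_and, Finset.mem_map,
      Function.Embedding.coeFn_mk]
    rw [Finset.card_eq_one]
    constructor
    · rintro ⟨i, rfl⟩; exact ⟨i, rfl⟩
    · rintro ⟨i, rfl⟩; exact ⟨i, rfl⟩
  rw [h4, Finset.sum_map]
  simp only [Function.Embedding.coeFn_mk]
  rw [levelOne, Finset.mul_sum]

end Vale.Agent.Lib.P047
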