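import Vale.Agent.Lib.P047.Inversion

/-! # P047, linear bound: the biased influence inequality

PROOF PLAN for `star` (standard p-biased Fourier analysis, unnormalised basis; `v = 1 - t²`).
Weights `μ x = ∏_i (1 + t sgn (x i))/2 ≥ 0` (as `|t| ≤ 1`), `Et g = ∑_x μ x * g x`.  Product rule:
`∑_x ∏_i h i (x i) = ∏_i (h i true + h i false)` (`Finset.prod_univ_sum` / `Fintype.piFinset`), which gives
`Et 1 = 1`, `Et (∏_{i∈S} sgn (x i)) = t^|S|` (so `Et f = Gp f t` by `fourier_inversion`), and for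
`ψ R x = ∏_{i∈R} (sgn (x i) - t)`: `Et (ψ R * ψ R') = if R = R' then v^|R| else 0`.
(a) `b R = ∑_{S ⊇ R} fourier f S * t^(|S|-|R|)`; expanding `sgn = (sgn - t) + t` (`Finset.prod_add`) gives
    `f x = ∑_R b R * ψ R x`; `b R = 0` for `|R| > d`; `b ∅ = Gp f t`; `∑_i b {i} = Gd f t`.
(b) Parseval: `1 = Et (f²) = ∑_R (b R)² v^|R|`.
(c) For each `i`: `D x = ∑_{R ∋ i} b R * ψ (R.erase i) x` does not depend on `x i` and
    `f (x with i ↦ true) - f (x with i ↦ false) = 2 D x`, so `D x ∈ {-1,0,1}`, `|D x| = (D x)²`.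
    `Et D = b {i}`, `Et (D²) = ∑_{R ∋ i} (b R)² v^(|R|-1)`.  Hence `v |b {i}| ≤ ∑_{R ∋ i} (b R)² v^|R|`.
(d) Sum over `i`: `v |Gd| ≤ ∑_R |R| (b R)² v^|R| ≤ d ∑_{R ≠ ∅} (b R)² v^|R| = d (1 - Gp²)`.
`Gp_abs_le`: `|Et f| ≤ Et |f| = 1`. -/

namespace Vale.Agent.Lib.P047.Lin

open Finset Vale.Agent.Lib.P047

/-- `G(t) = ∑_S fhat(S) t^{|S|}`, the mean of `f` under the product measure of bias `t`. -/
noncomputable def Gp {n : ℕ} (f : (Fin n → Bool) → ℝ) (t : ℝ) : ℝ :=
  ∑ S : Finset (Fin n), fourier f S * t ^ S.card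

/-- The derivative `G'(t)`. -/
noncomputable def Gd {n : ℕ} (f : (Fin n → Bool) → ℝ) (t : ℝ) : ℝ :=
  ∑ S : Finset (Fin n), fourier f S * (S.card * t ^ (S.card - 1))

/-- The product weight of bias `t`. -/
noncomputable def muB {n : ℕ} (t : ℝ) (x : Fin n → Bool) : ℝ := ∏ i, ((1 + t * sgn (x i)) / 2)

/-- The unnormalised biased characters. -/
noncomputable def psiB {n : ℕ} (t : ℝ) (R : Finset (Fin n)) (x : Fin n → Bool) : ℝ :=
  ∏ i ∈ R, (sgn (x i) - t)

/-- The biased coefficients. -/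
noncomputable def bB {n : ℕ} (f : (Fin n → Bool) → ℝ) (t : ℝ) (R : Finset (Fin n)) : ℝ :=
  ∑ S : Finset (Fin n), if R ⊆ S then fourier f S * t ^ (S.card - R.card) else 0

/-- The discrete derivative in direction `i`, in expanded form. -/
noncomputable def dB {n : ℕ} (f : (Fin n → Bool) → ℝ) (t : ℝ) (i : Fin n) (x : Fin n → Bool) : ℝ :=
  ∑ R : Finset (Fin n), (if i ∈ R then bB f t R else 0) * psiB t (R.erase i) x

lemma sum_prod_bool {n : ℕ} (h : Fin n → Bool → ℝ) :
    ∑ x : Fin n → Bool, ∏ i, h i (x i) = ∏ i, (h i true + h i false) := by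
  have h1 := Finset.prod_univ_sum (fun _ : Fin n => (Finset.univ : Finset Bool)) h
  rw [Fintype.piFinset_univ] at h1
  rw [← h1]
  apply Finset.prod_congr rfl
  intro i _
  rw [Fintype.sum_bool]

lemma muB_nonneg {n : ℕ} {t : ℝ} (ht : |t| ≤ 1) (x : Fin n → Bool) : 0 ≤ muB t x := by
  apply Finset.prod_nonneg
  intro i _
  have h1 := abs_le.1 ht
  cases x i <;> simp only [sgn] <;> norm_num <;> linarith [h1.1, h1.2]

lemma muB_psi_psi {n : ℕ} (t : ℝ) (R R' : Finset (Fin n)) :
    ∑ x, muB t x * (psiB t R x * psiB t R' x) = if R = R' then (1 - t ^ 2) ^ R.card else 0 := by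
  have h1 : ∀ x : Fin n → Bool, muB t x * (psiB t R x * psiB t R' x) =
      ∏ i, ((1 + t * sgn (x i)) / 2 * ((if i ∈ R then sgn (x i) - t else 1) *
        (if i ∈ R' then sgn (x i) - t else 1))) := by
    intro x
    rw [Finset.prod_mul_distrib, Finset.prod_mul_distrib, Finset.prod_ite_mem, Finset.prod_ite_mem,
      Finset.univ_inter, Finset.univ_inter]
    rfl
  simp_rw [h1]
  rw [sum_prod_bool (fun i b => (1 + t * sgn b) / 2 * ((if i ∈ R then sgn b - t else 1) *
    (if i ∈ R' then sgn b - t else 1)))]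
  have h2 : ∀ i : Fin n, ((1 + t * sgn true) / 2 * ((if i ∈ R then sgn true - t else 1) *
      (if i ∈ R' then sgn true - t else 1)) + (1 + t * sgn false) / 2 *
      ((if i ∈ R then sgn false - t else 1) * (if i ∈ R' then sgn false - t else 1))) =
      if i ∈ R then (if i ∈ R' then 1 - t ^ 2 else 0) else (if i ∈ R' then 0 else 1) := by
    intro i
    by_cases h : i ∈ R <;> by_cases h' : i ∈ R' <;> simp only [h, h', sgn, if_true, if_false] <;>
      norm_num <;> ring
  simp_rw [h2]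
  by_cases hRR : R = R'
  · subst hRR
    rw [if_pos rfl]
    have h3 : ∀ i : Fin n, (if i ∈ R then (if i ∈ R then 1 - t ^ 2 else 0)
        else (if i ∈ R then 0 else 1)) = if i ∈ R then 1 - t ^ 2 else 1 := by
      intro i
      by_cases h : i ∈ R <;> simp [h]
    simp_rw [h3]
    rw [Finset.prod_ite_mem, Finset.univ_inter, Finset.prod_const]
  · rw [if_neg hRR]
    obtain ⟨i, hi⟩ : ∃ i, ¬ (i ∈ R ↔ i ∈ R') := by
      by_contra hcon
      push Not at hcon
      exact hRR (Finset.ext hcon)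
    apply Finset.prod_eq_zero (Finset.mem_univ i)
    by_cases h : i ∈ R <;> by_cases h' : i ∈ R' <;> simp_all

lemma muB_psi {n : ℕ} (t : ℝ) (R : Finset (Fin n)) :
    ∑ x, muB t x * psiB t R x = if R = ∅ then 1 else 0 := by
  have h := muB_psi_psi t R ∅
  have h1 : ∀ x : Fin n → Bool, psiB t ∅ x = 1 := fun x => by simp [psiB]
  simp_rw [h1, mul_one] at h
  rw [h]
  by_cases hR : R = ∅
  · subst hR
    simp
  · simp [hR]

lemma expand_psi {n : ℕ} (f : (Fin n → Bool) → ℝ) (t : ℝ) (x : Fin n → Bool) :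
    f x = ∑ R : Finset (Fin n), bB f t R * psiB t R x := by
  have h1 : ∀ S : Finset (Fin n), ∏ i ∈ S, sgn (x i) =
      ∑ R : Finset (Fin n), if R ⊆ S then psiB t R x * t ^ (S.card - R.card) else 0 := by
    intro S
    have h2 : ∏ i ∈ S, sgn (x i) = ∏ i ∈ S, ((sgn (x i) - t) + t) := by simp
    rw [h2, Finset.prod_add, ← Finset.sum_filter]
    apply Finset.sum_congr
    · ext R
      simp [Finset.mem_powerset]
    · intro R hR
      rw [Finset.prod_const, Finset.card_sdiff_of_subset (Finset.mem_filter.1 hR).2]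
      rfl
  rw [fourier_inversion f x]
  simp_rw [h1, bB, Finset.mul_sum, Finset.sum_mul]
  rw [Finset.sum_comm]
  apply Finset.sum_congr rfl
  intro R _
  apply Finset.sum_congr rfl
  intro S _
  split_ifs <;> ring

lemma Et_mul_expand {n : ℕ} (t : ℝ) (A A' : Finset (Fin n) → ℝ)
    (σ : Finset (Fin n) → Finset (Fin n)) :
    ∑ x, muB t x * ((∑ R, A R * psiB t (σ R) x) * (∑ R', A' R' * psiB t (σ R') x)) =
      ∑ R, ∑ R', A R * A' R' * (if σ R = σ R' then (1 - t ^ 2) ^ (σ R).card else 0) := by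
  simp_rw [Finset.sum_mul_sum, Finset.mul_sum]
  rw [Finset.sum_comm]
  apply Finset.sum_congr rfl
  intro R _
  rw [Finset.sum_comm]
  apply Finset.sum_congr rfl
  intro R' _
  rw [← muB_psi_psi, Finset.mul_sum]
  apply Finset.sum_congr rfl
  intro x _
  ring

lemma parseval_biased {n : ℕ} (f : (Fin n → Bool) → ℝ) (hf : ∀ x, f x = 1 ∨ f x = -1) (t : ℝ) :
    ∑ R : Finset (Fin n), bB f t R ^ 2 * (1 - t ^ 2) ^ R.card = 1 := by
  have h := Et_mul_expand t (bB f t) (bB f t) id
  simp only [id] at h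
  simp_rw [← expand_psi f t] at h
  have h1 : ∀ x, f x * f x = 1 := by
    intro x
    rcases hf x with h | h <;> rw [h] <;> norm_num
  simp_rw [h1, mul_one] at h
  have h2 := muB_psi (n := n) t ∅
  have h3 : ∀ x : Fin n → Bool, psiB t ∅ x = 1 := fun x => by simp [psiB]
  simp_rw [h3, mul_one] at h2
  rw [h2] at h
  simp only [if_true] at h
  refine Eq.trans ?_ h.symm
  apply Finset.sum_congr rfl
  intro R _
  rw [Finset.sum_eq_single R]
  · rw [if_pos rfl]
    ring
  · intro R' _ hne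
    rw [if_neg (Ne.symm hne), mul_zero]
  · intro hR
    exact absurd (Finset.mem_univ R) hR

lemma bB_empty {n : ℕ} (f : (Fin n → Bool) → ℝ) (t : ℝ) : bB f t ∅ = Gp f t := by
  simp [bB, Gp]

lemma bB_eq_zero {n : ℕ} (f : (Fin n → Bool) → ℝ) (d : ℕ)
    (hdeg : ∀ S : Finset (Fin n), d < S.card → fourier f S = 0) (t : ℝ) (R : Finset (Fin n))
    (hR : d < R.card) : bB f t R = 0 := by
  apply Finset.sum_eq_zero
  intro S _
  split_ifs with h
  · rw [hdeg S (lt_of_lt_of_le hR (Finset.card_le_card h)), zero_mul]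
  · rfl

lemma sum_bB_singleton {n : ℕ} (f : (Fin n → Bool) → ℝ) (t : ℝ) :
    ∑ i : Fin n, bB f t {i} = Gd f t := by
  unfold bB Gd
  rw [Finset.sum_comm]
  apply Finset.sum_congr rfl
  intro S _
  simp_rw [Finset.singleton_subset_iff, Finset.card_singleton]
  rw [Finset.sum_ite_mem, Finset.univ_inter, Finset.sum_const, nsmul_eq_mul]
  ring

lemma psiB_update {n : ℕ} (t : ℝ) (R : Finset (Fin n)) (i : Fin n) (hi : i ∉ R)
    (x : Fin n → Bool) (b : Bool) : psiB t R (Function.update x i b) = psiB t R x := by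
  apply Finset.prod_congr rfl
  intro j hj
  have hne : j ≠ i := fun h => hi (h ▸ hj)
  rw [Function.update_of_ne hne]

lemma dB_update {n : ℕ} (f : (Fin n → Bool) → ℝ) (t : ℝ) (i : Fin n) (x : Fin n → Bool) (b : Bool) :
    dB f t i (Function.update x i b) = dB f t i x := by
  apply Finset.sum_congr rfl
  intro R _
  rw [psiB_update t (R.erase i) i (Finset.notMem_erase i R)]

lemma split_dB {n : ℕ} (f : (Fin n → Bool) → ℝ) (t : ℝ) (i : Fin n) (x : Fin n → Bool) :
    f x = (∑ R : Finset (Fin n), (if i ∈ R then 0 else bB f t R * psiB t R x)) +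
      (sgn (x i) - t) * dB f t i x := by
  rw [expand_psi f t x, dB, Finset.mul_sum, ← Finset.sum_add_distrib]
  apply Finset.sum_congr rfl
  intro R _
  by_cases h : i ∈ R
  · rw [if_pos h, if_pos h, zero_add]
    have h1 : psiB t R x = (sgn (x i) - t) * psiB t (R.erase i) x :=
      (Finset.mul_prod_erase R (fun j => sgn (x j) - t) h).symm
    rw [h1]
    ring
  · rw [if_neg h, if_neg h]
    ring

lemma two_dB {n : ℕ} (f : (Fin n → Bool) → ℝ) (t : ℝ) (i : Fin n) (x : Fin n → Bool) :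
    2 * dB f t i x = f (Function.update x i true) - f (Function.update x i false) := by
  rw [split_dB f t i (Function.update x i true), split_dB f t i (Function.update x i false),
    dB_update, dB_update]
  have h1 : ∀ b : Bool, (∑ R : Finset (Fin n),
      (if i ∈ R then 0 else bB f t R * psiB t R (Function.update x i b))) =
      ∑ R : Finset (Fin n), (if i ∈ R then 0 else bB f t R * psiB t R x) := by
    intro b
    apply Finset.sum_congr rfl
    intro R _
    by_cases h : i ∈ R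
    · rw [if_pos h, if_pos h]
    · rw [if_neg h, if_neg h, psiB_update t R i h]
  rw [h1 true, h1 false]
  simp only [Function.update_self, sgn]
  norm_num
  ring

lemma abs_dB {n : ℕ} (f : (Fin n → Bool) → ℝ) (hf : ∀ x, f x = 1 ∨ f x = -1) (t : ℝ) (i : Fin n)
    (x : Fin n → Bool) : |dB f t i x| = dB f t i x * dB f t i x := by
  have h := two_dB f t i x
  rcases hf (Function.update x i true) with h1 | h1 <;>
    rcases hf (Function.update x i false) with h2 | h2 <;> rw [h1, h2] at h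
  · have : dB f t i x = 0 := by linarith
    rw [this]; simp
  · have : dB f t i x = 1 := by linarith
    rw [this]; simp
  · have : dB f t i x = -1 := by linarith
    rw [this]; simp
  · have : dB f t i x = 0 := by linarith
    rw [this]; simp

lemma Et_dB {n : ℕ} (f : (Fin n → Bool) → ℝ) (t : ℝ) (i : Fin n) :
    ∑ x, muB t x * dB f t i x = bB f t {i} := by
  unfold dB
  simp_rw [Finset.mul_sum]
  rw [Finset.sum_comm]
  have h1 : ∀ R : Finset (Fin n), ∑ x, muB t x * ((if i ∈ R then bB f t R else 0) *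
      psiB t (R.erase i) x) = (if i ∈ R then bB f t R else 0) *
      (if R.erase i = ∅ then 1 else 0) := by
    intro R
    rw [← muB_psi, Finset.mul_sum]
    apply Finset.sum_congr rfl
    intro x _
    ring
  simp_rw [h1]
  rw [Finset.sum_eq_single {i}]
  · simp
  · intro R _ hne
    by_cases h : i ∈ R
    · have h2 : R.erase i ≠ ∅ := by
        intro h3
        rcases (Finset.erase_eq_empty_iff R i).1 h3 with h4 | h4
        · rw [h4] at h
          simp at h
        · exact hne h4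
      rw [if_neg h2, mul_zero]
    · rw [if_neg h, zero_mul]
  · intro h
    exact absurd (Finset.mem_univ _) h

lemma Et_dB_sq {n : ℕ} (f : (Fin n → Bool) → ℝ) (t : ℝ) (i : Fin n) :
    ∑ x, muB t x * (dB f t i x * dB f t i x) =
      ∑ R : Finset (Fin n), if i ∈ R then bB f t R ^ 2 * (1 - t ^ 2) ^ (R.erase i).card else 0 := by
  unfold dB
  rw [Et_mul_expand t (fun R => if i ∈ R then bB f t R else 0)
    (fun R => if i ∈ R then bB f t R else 0) (fun R => R.erase i)]
  apply Finset.sum_congr rfl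
  intro R _
  by_cases h : i ∈ R
  · simp only [if_pos h]
    rw [Finset.sum_eq_single R]
    · rw [if_pos h, if_pos rfl]
      ring
    · intro R' _ hne
      by_cases h' : i ∈ R'
      · have h2 : R.erase i ≠ R'.erase i := by
          intro h3
          apply hne
          rw [← Finset.insert_erase h', ← h3, Finset.insert_erase h]
        rw [if_neg h2, mul_zero]
      · rw [if_neg h', mul_zero, zero_mul]
    · intro hR
      exact absurd (Finset.mem_univ R) hR
  · simp only [if_neg h]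
    apply Finset.sum_eq_zero
    intro R' _
    rw [zero_mul, zero_mul]

lemma one_coord {n : ℕ} (f : (Fin n → Bool) → ℝ) (hf : ∀ x, f x = 1 ∨ f x = -1) (t : ℝ)
    (ht : |t| ≤ 1) (i : Fin n) :
    (1 - t ^ 2) * |bB f t {i}| ≤
      ∑ R : Finset (Fin n), if i ∈ R then bB f t R ^ 2 * (1 - t ^ 2) ^ R.card else 0 := by
  have hv : 0 ≤ 1 - t ^ 2 := by
    have := sq_le_one_iff_abs_le_one t |>.2 ht
    linarith
  have h1 : |bB f t {i}| ≤ ∑ x, muB t x * (dB f t i x * dB f t i x) := by
    rw [← Et_dB]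
    refine le_trans (Finset.abs_sum_le_sum_abs _ _) (le_of_eq ?_)
    apply Finset.sum_congr rfl
    intro x _
    rw [abs_mul, abs_of_nonneg (muB_nonneg ht x), abs_dB f hf]
  rw [Et_dB_sq] at h1
  calc (1 - t ^ 2) * |bB f t {i}|
      ≤ (1 - t ^ 2) * ∑ R : Finset (Fin n),
          (if i ∈ R then bB f t R ^ 2 * (1 - t ^ 2) ^ (R.erase i).card else 0) :=
        mul_le_mul_of_nonneg_left h1 hv
    _ = ∑ R : Finset (Fin n), if i ∈ R then bB f t R ^ 2 * (1 - t ^ 2) ^ R.card else 0 := by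
        rw [Finset.mul_sum]
        apply Finset.sum_congr rfl
        intro R _
        by_cases h : i ∈ R
        · rw [if_pos h, if_pos h, ← Finset.card_erase_add_one h, pow_succ]
          ring
        · rw [if_neg h, if_neg h, mul_zero]

theorem Gp_abs_le {n : ℕ} (f : (Fin n → Bool) → ℝ) (hf : ∀ x, f x = 1 ∨ f x = -1) (t : ℝ)
    (ht : |t| ≤ 1) : |Gp f t| ≤ 1 := by
  have hv : 0 ≤ 1 - t ^ 2 := by
    have := sq_le_one_iff_abs_le_one t |>.2 ht
    linarith
  have h := parseval_biased f hf t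
  have h1 : bB f t ∅ ^ 2 * (1 - t ^ 2) ^ (∅ : Finset (Fin n)).card ≤
      ∑ R : Finset (Fin n), bB f t R ^ 2 * (1 - t ^ 2) ^ R.card :=
    Finset.single_le_sum (f := fun R : Finset (Fin n) => bB f t R ^ 2 * (1 - t ^ 2) ^ R.card)
      (fun R _ => mul_nonneg (sq_nonneg _) (pow_nonneg hv _)) (Finset.mem_univ ∅)
  rw [h, bB_empty, Finset.card_empty, pow_zero, mul_one] at h1
  exact (sq_le_one_iff_abs_le_one _).1 h1

/-- The biased influence inequality `(1 - t²) |G'(t)| ≤ d (1 - G(t)²)`. -/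
theorem star {n : ℕ} (f : (Fin n → Bool) → ℝ) (hf : ∀ x, f x = 1 ∨ f x = -1) (d : ℕ)
    (hdeg : ∀ S : Finset (Fin n), d < S.card → fourier f S = 0) (t : ℝ) (ht : |t| ≤ 1) :
    (1 - t ^ 2) * |Gd f t| ≤ d * (1 - Gp f t ^ 2) := by
  have hv : 0 ≤ 1 - t ^ 2 := by
    have := sq_le_one_iff_abs_le_one t |>.2 ht
    linarith
  have hP := parseval_biased f hf t
  set c : Finset (Fin n) → ℝ := fun R => bB f t R ^ 2 * (1 - t ^ 2) ^ R.card with hc
  have hc0 : ∀ R, 0 ≤ c R := fun R => mul_nonneg (sq_nonneg _) (pow_nonneg hv _)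
  have h1 : (1 - t ^ 2) * |Gd f t| ≤ ∑ i : Fin n, ∑ R : Finset (Fin n), if i ∈ R then c R else 0 := by
    rw [← sum_bB_singleton]
    calc (1 - t ^ 2) * |∑ i : Fin n, bB f t {i}|
        ≤ (1 - t ^ 2) * ∑ i : Fin n, |bB f t {i}| :=
          mul_le_mul_of_nonneg_left (Finset.abs_sum_le_sum_abs _ _) hv
      _ = ∑ i : Fin n, (1 - t ^ 2) * |bB f t {i}| := Finset.mul_sum _ _ _
      _ ≤ _ := Finset.sum_le_sum fun i _ => one_coord f hf t ht i
  have h2 : ∑ i : Fin n, ∑ R : Finset (Fin n), (if i ∈ R then c R else 0) =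
      ∑ R : Finset (Fin n), (R.card : ℝ) * c R := by
    rw [Finset.sum_comm]
    apply Finset.sum_congr rfl
    intro R _
    rw [Finset.sum_ite_mem, Finset.univ_inter, Finset.sum_const, nsmul_eq_mul]
  have h3 : ∑ R : Finset (Fin n), (R.card : ℝ) * c R ≤
      ∑ R : Finset (Fin n), (d : ℝ) * (c R - if R = ∅ then c ∅ else 0) := by
    apply Finset.sum_le_sum
    intro R _
    by_cases hR : R = ∅
    · subst hR
      simp
    · rw [if_neg hR, sub_zero]
      by_cases hd : d < R.card
      · have : c R = 0 := by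
          simp only [hc]
          rw [bB_eq_zero f d hdeg t R hd]
          ring
        rw [this, mul_zero, mul_zero]
      · push Not at hd
        exact mul_le_mul_of_nonneg_right (by exact_mod_cast hd) (hc0 R)
  have h4 : ∑ R : Finset (Fin n), (d : ℝ) * (c R - if R = ∅ then c ∅ else 0) =
      d * (1 - Gp f t ^ 2) := by
    rw [← Finset.mul_sum, Finset.sum_sub_distrib, Finset.sum_ite_eq' Finset.univ ∅ (fun _ => c ∅),
      if_pos (Finset.mem_univ _)]
    have h5 : c ∅ = Gp f t ^ 2 := by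
      simp only [hc]
      rw [bB_empty, Finset.card_empty, pow_zero, mul_one]
    rw [h5]
    congr 2
  linarith [h1, h2, h3, h4]

end Vale.Agent.Lib.P047.Lin
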