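import Mathlib

/-! # P047, linear bound: the elementary inequality at one node -/

namespace Vale.Agent.Lib.P047.Lin

/-- The bound at one node.  `c = cos θ`, `y = |T θ|`, `D = |T' θ|/d`, `w` the weight.

PROOF PLAN.  Case `1/2 ≤ c`: `D ≤ (1 - y²)/c`, and `- y²/c + √2 y ≤ c/2` (a square), so
`D + √2 y - 3/2 ≤ 1/c + c/2 - 3/2 = (1-c)(2-c)/(2c) ≤ (3/2)(1-c)`; multiply by `w` and use
`w (1-c) = 1/(2 d²)`.  Case `c < 1/2`: `2 - 2c > 1` so `w < 1/d²`, and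
`D + √2 y - 3/2 ≤ √2 - 1/2 < 1`. -/
theorem node_bound (d : ℕ) (hd : 0 < d) (w c y D : ℝ) (hw : 0 < w)
    (hwc : w * (2 - 2 * c) = 1 / (d : ℝ) ^ 2) (hc : |c| ≤ 1) (hy0 : 0 ≤ y) (hy1 : y ≤ 1)
    (hD0 : 0 ≤ D) (hD1 : D ≤ 1) (hstar : |c| * D ≤ 1 - y ^ 2) :
    w * (D + Real.sqrt 2 * y) ≤ 3 / 2 * w + 1 / (d : ℝ) ^ 2 := by
  rw [← hwc]
  set s := Real.sqrt 2 with hs
  have hs2 : s ^ 2 = 2 := Real.sq_sqrt (by norm_num)
  have hs0 : 0 ≤ s := Real.sqrt_nonneg 2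
  have hs15 : s ≤ 3 / 2 := by nlinarith
  have hc1 : c ≤ 1 := (abs_le.1 hc).2
  -- it suffices to bound the bracket
  suffices h : D + s * y ≤ 3 / 2 + (2 - 2 * c) by
    have := mul_le_mul_of_nonneg_left h hw.le
    nlinarith
  rcases le_or_gt (1 / 2) c with hc2 | hc2
  · have hcpos : 0 < c := by linarith
    rw [abs_of_pos hcpos] at hstar
    -- multiply by `c`
    have hsq : 0 ≤ (s * y - c) ^ 2 := sq_nonneg _
    have hsq' : s * y * c ≤ y ^ 2 + c ^ 2 / 2 := by nlinarith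
    have hkey : c * (D + s * y) ≤ c * (3 / 2 + (2 - 2 * c)) := by
      nlinarith
    exact le_of_mul_le_mul_left hkey hcpos
  · have h1 : s * y ≤ s := by nlinarith
    linarith

end Vale.Agent.Lib.P047.Lin
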