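import Vale.Agent.Lib.P047.LinTP
import Vale.Agent.Lib.P047.LinNode

/-! # P047, linear bound: the certificate argument -/

namespace Vale.Agent.Lib.P047.Lin

open Finset

/-- Real form of the Riesz formula. -/
theorem riesz_real {d : ℕ} {T T1 : ℝ → ℝ} (h : IsTP d (fun θ => (T θ : ℂ)) (fun θ => (T1 θ : ℂ)))
    (hd : 0 < d) (x : ℝ) (hx : Real.sin x ≠ 0) (θ0 : ℝ) :
    ∑ k ∈ range (2 * d), ((-1 : ℝ) ^ k * wt d x k * T (θ0 + node d x k))
      = T1 θ0 / (d * Real.sin x) + T θ0 * Real.cos x / Real.sin x ^ 2 := by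
  have h1 := h.riesz hd x hx θ0
  have h2 : ((∑ k ∈ range (2 * d), ((-1 : ℝ) ^ k * wt d x k * T (θ0 + node d x k)) : ℝ) : ℂ)
      = ((T1 θ0 / (d * Real.sin x) + T θ0 * Real.cos x / Real.sin x ^ 2 : ℝ) : ℂ) := by
    push_cast at h1 ⊢
    exact h1
  exact Complex.ofReal_injective h2

/-- Bernstein's inequality. -/
theorem bernstein {d : ℕ} {T T1 : ℝ → ℝ} (h : IsTP d (fun θ => (T θ : ℂ)) (fun θ => (T1 θ : ℂ)))
    (hd : 0 < d) (hT : ∀ θ, |T θ| ≤ 1) (θ0 : ℝ) : |T1 θ0| ≤ d := by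
  have hs : Real.sin (Real.pi / 2) ≠ 0 := by rw [Real.sin_pi_div_two]; norm_num
  have h1 := riesz_real h hd (Real.pi / 2) hs θ0
  have h2 := sum_wt d hd (Real.pi / 2) hs
  rw [Real.sin_pi_div_two, Real.cos_pi_div_two] at h1
  rw [Real.sin_pi_div_two] at h2
  have hd' : (0 : ℝ) < d := by exact_mod_cast hd
  have h3 : T1 θ0 = d * ∑ k ∈ range (2 * d),
      ((-1 : ℝ) ^ k * wt d (Real.pi / 2) k * T (θ0 + node d (Real.pi / 2) k)) := by
    rw [h1]; field_simp; ring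
  have h4 : |∑ k ∈ range (2 * d),
      ((-1 : ℝ) ^ k * wt d (Real.pi / 2) k * T (θ0 + node d (Real.pi / 2) k))| ≤ 1 := by
    calc _ ≤ ∑ k ∈ range (2 * d),
          |((-1 : ℝ) ^ k * wt d (Real.pi / 2) k * T (θ0 + node d (Real.pi / 2) k))| :=
          Finset.abs_sum_le_sum_abs _ _
      _ ≤ ∑ k ∈ range (2 * d), wt d (Real.pi / 2) k := by
          apply Finset.sum_le_sum
          intro k _
          have hw := wt_pos d hd (Real.pi / 2) hs k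
          rw [abs_mul, abs_mul, abs_pow, abs_neg, abs_one, one_pow, one_mul, abs_of_pos hw]
          have := hT (θ0 + node d (Real.pi / 2) k)
          nlinarith
      _ = 1 := by rw [h2]; norm_num
  rw [h3, abs_mul, abs_of_pos hd']
  nlinarith

/-- One term of the certificate sum. -/
theorem term_bound {d : ℕ} {T T1 : ℝ → ℝ}
    (h : IsTP d (fun θ => (T θ : ℂ)) (fun θ => (T1 θ : ℂ)))
    (hd : 0 < d) (hT : ∀ θ, |T θ| ≤ 1)
    (hstar : ∀ θ, |Real.cos θ| * |T1 θ| ≤ d * (1 - T θ ^ 2))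
    (x : ℝ) (hx : Real.sin x ≠ 0) (k : ℕ) (e : ℝ) (he : |e| = 1) :
    (-1 : ℝ) ^ k * wt d x k * T1 (0 + node d x k) / d
      + e * (Real.sqrt 2 * ((-1 : ℝ) ^ k * wt d x k * T (0 + node d x k)))
      ≤ 3 / 2 * wt d x k + 1 / (d : ℝ) ^ 2 := by
  have hd' : (0 : ℝ) < d := by exact_mod_cast hd
  set θ := node d x k with hθ
  set w := wt d x k with hw
  have hwpos : 0 < w := wt_pos d hd x hx k
  rw [zero_add]
  have hb := node_bound d hd w (Real.cos θ) |T θ| (|T1 θ| / d) hwpos (wt_mul d hd x hx k)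
    (Real.abs_cos_le_one θ) (abs_nonneg _) (hT θ) (by positivity)
    (by rw [div_le_one hd']; exact bernstein h hd hT θ)
    (by
      have := hstar θ
      rw [sq_abs, ← mul_div_assoc, div_le_iff₀ hd']
      linarith)
  refine le_trans ?_ hb
  have hs : |(-1 : ℝ) ^ k| = 1 := by rw [abs_pow, abs_neg, abs_one, one_pow]
  have h1 : (-1 : ℝ) ^ k * w * T1 θ / d ≤ w * (|T1 θ| / d) := by
    have : (-1 : ℝ) ^ k * T1 θ ≤ |T1 θ| := by
      calc (-1 : ℝ) ^ k * T1 θ ≤ |(-1 : ℝ) ^ k * T1 θ| := le_abs_self _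
        _ = |T1 θ| := by rw [abs_mul, hs, one_mul]
    have h2 : (-1 : ℝ) ^ k * w * T1 θ / d = w * (((-1 : ℝ) ^ k * T1 θ) / d) := by ring
    rw [h2]
    apply mul_le_mul_of_nonneg_left _ hwpos.le
    exact div_le_div_of_nonneg_right this hd'.le
  have h2 : e * (Real.sqrt 2 * ((-1 : ℝ) ^ k * w * T θ)) ≤ w * (Real.sqrt 2 * |T θ|) := by
    have : e * (-1 : ℝ) ^ k * T θ ≤ |T θ| := by
      calc e * (-1 : ℝ) ^ k * T θ ≤ |e * (-1 : ℝ) ^ k * T θ| := le_abs_self _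
        _ = |T θ| := by rw [abs_mul, abs_mul, hs, he, one_mul, one_mul]
    have h3 : e * (Real.sqrt 2 * ((-1 : ℝ) ^ k * w * T θ))
        = w * (Real.sqrt 2 * (e * (-1 : ℝ) ^ k * T θ)) := by ring
    rw [h3]
    apply mul_le_mul_of_nonneg_left _ hwpos.le
    exact mul_le_mul_of_nonneg_left this (Real.sqrt_nonneg 2)
  calc _ ≤ w * (|T1 θ| / d) + w * (Real.sqrt 2 * |T θ|) := add_le_add h1 h2
    _ = w * (|T1 θ| / d + Real.sqrt 2 * |T θ|) := by ring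

/-- The arithmetic at the end of the certificate argument. -/
theorem cert_arith (dd r2 r3 t1 t0 B1 B2 : ℝ) (hd : 0 < dd) (h2 : r2 ^ 2 = 2) (h3 : r3 ^ 2 = 3)
    (h2pos : 0 < r2) (h3pos : 0 < r3)
    (hS1 : B1 / dd + 1 * (r2 * (t1 / (dd * (r2 / r3)) + t0 * (1 / r3) / (r2 / r3) ^ 2))
      ≤ 3 / 2 * (1 / (r2 / r3) ^ 2) + 2 / dd)
    (hS2 : B2 / dd + (-1) * (r2 * (t1 / (dd * (-(r2 / r3))) + t0 * (1 / r3) / (-(r2 / r3)) ^ 2))
      ≤ 3 / 2 * (1 / (-(r2 / r3)) ^ 2) + 2 / dd)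
    (hB : B1 + B2 = 2 * (t1 * (1 / r3) / (r2 / r3) ^ 2)) :
    t1 ≤ r3 / 2 * dd + 4 / 5 := by
  have e1 : (r2 / r3) ^ 2 = 2 / 3 := by rw [div_pow, h2, h3]
  have e1' : (-(r2 / r3)) ^ 2 = 2 / 3 := by rw [neg_sq, e1]
  rw [e1] at hS1 hB
  rw [e1'] at hS2
  have e2 : r2 * (t1 / (dd * (r2 / r3))) = t1 * r3 / dd := by field_simp
  have e3 : r2 * (t1 / (dd * (-(r2 / r3)))) = - (t1 * r3 / dd) := by
    field_simp
  have e4 : t1 * (1 / r3) / (2 / 3) = t1 * r3 / 2 := by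
    field_simp
    rw [h3]
  rw [mul_add r2, e2] at hS1
  rw [mul_add r2, e3] at hS2
  rw [e4] at hB
  have key : (B1 + B2) / dd + 2 * (t1 * r3 / dd) ≤ 9 / 2 + 4 / dd := by
    have t := add_le_add hS1 hS2
    have t2 : B1 / dd + 1 * (t1 * r3 / dd + r2 * (t0 * (1 / r3) / (2 / 3)))
        + (B2 / dd + (-1) * (-(t1 * r3 / dd) + r2 * (t0 * (1 / r3) / (2 / 3))))
        = (B1 + B2) / dd + 2 * (t1 * r3 / dd) := by ring
    have t3 : 3 / 2 * (1 / (2 / 3)) + 2 / dd + (3 / 2 * (1 / (2 / 3)) + 2 / dd)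
        = 9 / 2 + 4 / dd := by ring
    rw [t2, t3] at t
    exact t
  rw [hB] at key
  have key2 : 3 * r3 * t1 ≤ 9 / 2 * dd + 4 := by
    have e5 : 2 * (t1 * r3 / 2) / dd + 2 * (t1 * r3 / dd) = 3 * r3 * t1 / dd := by
      field_simp; ring
    rw [e5, div_le_iff₀ hd] at key
    have e6 : (9 / 2 + 4 / dd) * dd = 9 / 2 * dd + 4 := by field_simp
    linarith
  have hr3' : (5 : ℝ) / 3 ≤ r3 := by nlinarith
  nlinarith [mul_pos h3pos hd]

/-- The sum of the term bounds for one family of nodes. -/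
theorem family_bound {d : ℕ} {T T1 : ℝ → ℝ}
    (h : IsTP d (fun θ => (T θ : ℂ)) (fun θ => (T1 θ : ℂ)))
    (hd : 0 < d) (hT : ∀ θ, |T θ| ≤ 1)
    (hstar : ∀ θ, |Real.cos θ| * |T1 θ| ≤ d * (1 - T θ ^ 2))
    (x : ℝ) (hx : Real.sin x ≠ 0) (e : ℝ) (he : |e| = 1) :
    (∑ k ∈ range (2 * d), ((-1 : ℝ) ^ k * wt d x k * T1 (0 + node d x k))) / d
      + e * (Real.sqrt 2 * (T1 0 / (d * Real.sin x) + T 0 * Real.cos x / Real.sin x ^ 2))
      ≤ 3 / 2 * (1 / Real.sin x ^ 2) + 2 / d := by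
  have hd' : (0 : ℝ) < d := by exact_mod_cast hd
  have hS1 : ∑ k ∈ range (2 * d), ((-1 : ℝ) ^ k * wt d x k * T1 (0 + node d x k) / d
      + e * (Real.sqrt 2 * ((-1 : ℝ) ^ k * wt d x k * T (0 + node d x k))))
      ≤ ∑ k ∈ range (2 * d), (3 / 2 * wt d x k + 1 / (d : ℝ) ^ 2) :=
    Finset.sum_le_sum (fun k _ => term_bound h hd hT hstar x hx k e he)
  rw [Finset.sum_add_distrib, Finset.sum_add_distrib, ← Finset.sum_div, ← Finset.mul_sum,
    ← Finset.mul_sum, ← Finset.mul_sum, riesz_real h hd x hx 0, sum_wt d hd x hx,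
    Finset.sum_const, Finset.card_range] at hS1
  have e6 : (2 * d) • (1 / (d : ℝ) ^ 2) = 2 / d := by
    rw [nsmul_eq_mul]; push_cast; field_simp
  rw [e6] at hS1
  exact hS1

/-- The two Riesz sums of the derivative add up to a multiple of `T' 0`. -/
theorem deriv_sums {d : ℕ} {T T1 : ℝ → ℝ}
    (h : IsTP d (fun θ => (T θ : ℂ)) (fun θ => (T1 θ : ℂ)))
    (hd : 0 < d) (x : ℝ) (hx : Real.sin x ≠ 0) :
    (∑ k ∈ range (2 * d), ((-1 : ℝ) ^ k * wt d x k * T1 (0 + node d x k)))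
      + (∑ k ∈ range (2 * d), ((-1 : ℝ) ^ k * wt d (-x) k * T1 (0 + node d (-x) k)))
      = 2 * (T1 0 * Real.cos x / Real.sin x ^ 2) := by
  have hd' : (0 : ℝ) < d := by exact_mod_cast hd
  have hx' : Real.sin (-x) ≠ 0 := by rw [Real.sin_neg]; exact neg_ne_zero.mpr hx
  obtain ⟨F2, hF2⟩ := h.deriv
  have hB := hF2.riesz hd x hx 0
  have hB' := hF2.riesz hd (-x) hx' 0
  apply Complex.ofReal_injective
  have hsxc : (Real.sin x : ℂ) ≠ 0 := by exact_mod_cast hx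
  have hdc : (d : ℂ) ≠ 0 := by exact_mod_cast hd'.ne'
  rw [Real.sin_neg, Real.cos_neg] at hB'
  have e : ((∑ k ∈ range (2 * d), ((-1 : ℝ) ^ k * wt d x k * T1 (0 + node d x k)))
    + (∑ k ∈ range (2 * d), ((-1 : ℝ) ^ k * wt d (-x) k * T1 (0 + node d (-x) k))) : ℝ)
    = (∑ k ∈ range (2 * d), ((-1 : ℂ) ^ k * (wt d x k : ℂ) * (T1 (0 + node d x k) : ℂ)))
    + (∑ k ∈ range (2 * d), ((-1 : ℂ) ^ k * (wt d (-x) k : ℂ) * (T1 (0 + node d (-x) k) : ℂ))) := by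
    push_cast; rfl
  rw [e, hB, hB']
  simp only [Complex.ofReal_mul, Complex.ofReal_div, Complex.ofReal_pow, Complex.ofReal_neg,
    Complex.ofReal_ofNat]
  field_simp
  ring

/-- The certificate: a trigonometric polynomial `T` of degree `≤ d`, bounded by `1`, with
`|cos θ| |T' θ| ≤ d (1 - T θ ^ 2)` has `T' 0 ≤ (√3/2) d + 4/5`. -/
theorem cert {d : ℕ} {T T1 : ℝ → ℝ} (h : IsTP d (fun θ => (T θ : ℂ)) (fun θ => (T1 θ : ℂ)))
    (hd : 0 < d) (hT : ∀ θ, |T θ| ≤ 1)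
    (hstar : ∀ θ, |Real.cos θ| * |T1 θ| ≤ d * (1 - T θ ^ 2)) :
    T1 0 ≤ Real.sqrt 3 / 2 * d + 4 / 5 := by
  have hd' : (0 : ℝ) < d := by exact_mod_cast hd
  have h3 : Real.sqrt 3 ^ 2 = 3 := Real.sq_sqrt (by norm_num)
  have h2 : Real.sqrt 2 ^ 2 = 2 := Real.sq_sqrt (by norm_num)
  have h3pos : 0 < Real.sqrt 3 := Real.sqrt_pos.mpr (by norm_num)
  have h2pos : 0 < Real.sqrt 2 := Real.sqrt_pos.mpr (by norm_num)
  have hr3ge : 1 ≤ Real.sqrt 3 := by nlinarith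
  have hle : 1 / Real.sqrt 3 ≤ 1 := by rw [div_le_one h3pos]; exact hr3ge
  have hpos1 : 0 < 1 / Real.sqrt 3 := by positivity
  obtain ⟨x, hcos, hsin⟩ : ∃ x : ℝ, Real.cos x = 1 / Real.sqrt 3
      ∧ Real.sin x = Real.sqrt 2 / Real.sqrt 3 := by
    refine ⟨Real.arccos (1 / Real.sqrt 3), Real.cos_arccos (by linarith) hle, ?_⟩
    rw [Real.sin_arccos]
    have : 1 - (1 / Real.sqrt 3) ^ 2 = (Real.sqrt 2 / Real.sqrt 3) ^ 2 := by
      rw [div_pow, div_pow, h3, h2]; norm_num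
    rw [this, Real.sqrt_sq (by positivity)]
  have hsx : Real.sin x ≠ 0 := by rw [hsin]; positivity
  have hsx' : Real.sin (-x) ≠ 0 := by rw [Real.sin_neg]; exact neg_ne_zero.mpr hsx
  have hS1 := family_bound h hd hT hstar x hsx 1 (by simp)
  have hS2 := family_bound h hd hT hstar (-x) hsx' (-1) (by simp)
  have hB := deriv_sums h hd x hsx
  rw [Real.sin_neg, Real.cos_neg] at hS2
  rw [hsin, hcos] at hS1 hS2 hB
  exact cert_arith d (Real.sqrt 2) (Real.sqrt 3) (T1 0) (T 0) _ _ hd' h2 h3 h2pos h3pos hS1 hS2 hB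

/-- The polynomial form. -/
theorem poly_bound (d : ℕ) (hd : 0 < d) (a : ℕ → ℝ)
    (hG : ∀ t : ℝ, |t| ≤ 1 → |∑ j ∈ range (d + 1), a j * t ^ j| ≤ 1)
    (hS : ∀ t : ℝ, |t| ≤ 1 → (1 - t ^ 2) * |∑ j ∈ range (d + 1), a j * (j * t ^ (j - 1))|
      ≤ d * (1 - (∑ j ∈ range (d + 1), a j * t ^ j) ^ 2)) :
    a 1 ≤ Real.sqrt 3 / 2 * d + 4 / 5 := by
  have h := IsTP.poly_sin d a
  have hc := cert (T := fun θ => ∑ j ∈ range (d + 1), a j * Real.sin θ ^ j)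
    (T1 := fun θ => Real.cos θ * ∑ j ∈ range (d + 1), a j * (j * Real.sin θ ^ (j - 1))) h hd
    (fun θ => hG _ (Real.abs_sin_le_one θ))
    (fun θ => by
      have := hS _ (Real.abs_sin_le_one θ)
      have hcs : 1 - Real.sin θ ^ 2 = |Real.cos θ| * |Real.cos θ| := by
        rw [abs_mul_abs_self]; nlinarith [Real.sin_sq_add_cos_sq θ]
      rw [hcs] at this
      rw [abs_mul]
      linarith)
  simp only [Real.cos_zero, Real.sin_zero, one_mul] at hc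
  have : ∑ j ∈ range (d + 1), a j * ((j : ℝ) * (0 : ℝ) ^ (j - 1)) = a 1 := by
    rw [Finset.sum_eq_single 1]
    · simp
    · intro j _ hj
      rcases Nat.eq_zero_or_pos j with h0 | h0
      · subst h0; simp
      · have : j - 1 ≠ 0 := by omega
        simp [this]
    · intro h1
      exfalso; apply h1; simp; omega
  rw [this] at hc
  exact hc

end Vale.Agent.Lib.P047.Lin
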