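import Vale.Agent.Lib.P047.LinBiased
import Vale.Agent.Lib.P047.LinCert

namespace Vale.Agent.Lib.P047.Lin

open Finset Vale.Agent.Lib.P047

/-- Sum of the Fourier coefficients of level `j`. -/
noncomputable def lev {n : ℕ} (f : (Fin n → Bool) → ℝ) (j : ℕ) : ℝ :=
  ∑ S ∈ (univ : Finset (Finset (Fin n))).filter (fun S => S.card = j), fourier f S

theorem lev_one {n : ℕ} (f : (Fin n → Bool) → ℝ) : lev f 1 = levelOne f := by
  unfold lev levelOne
  have : (univ : Finset (Finset (Fin n))).filter (fun S => S.card = 1)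
      = (univ : Finset (Fin n)).image (fun i => ({i} : Finset (Fin n))) := by
    ext S
    simp only [mem_filter, mem_univ, true_and, mem_image, Finset.card_eq_one]
    constructor
    · rintro ⟨a, rfl⟩; exact ⟨a, rfl⟩
    · rintro ⟨a, rfl⟩; exact ⟨a, rfl⟩
  rw [this, Finset.sum_image]
  intro a _ b _ hab
  exact Finset.singleton_injective hab

theorem sum_by_level {n : ℕ} (f : (Fin n → Bool) → ℝ) (d : ℕ)
    (hdeg : ∀ S : Finset (Fin n), d < S.card → fourier f S = 0) (φ : ℕ → ℝ) :
    ∑ S : Finset (Fin n), fourier f S * φ S.card = ∑ j ∈ range (d + 1), lev f j * φ j := by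
  have h1 : ∑ S ∈ (univ : Finset (Finset (Fin n))).filter (fun S => S.card ∈ range (d + 1)),
      fourier f S * φ S.card = ∑ S : Finset (Fin n), fourier f S * φ S.card := by
    apply Finset.sum_filter_of_ne
    intro S _ hS
    by_contra hc
    apply hS
    rw [hdeg S (by simpa using hc), zero_mul]
  have h2 := Finset.sum_fiberwise_of_maps_to
    (s := (univ : Finset (Finset (Fin n))).filter (fun S => S.card ∈ range (d + 1)))
    (t := range (d + 1)) (g := fun S => S.card)
    (fun S hS => (Finset.mem_filter.mp hS).2) (fun S => fourier f S * φ S.card)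
  rw [← h1, ← h2]
  apply Finset.sum_congr rfl
  intro j hj
  unfold lev
  rw [Finset.sum_mul, Finset.filter_filter]
  apply Finset.sum_congr
  · ext S
    simp only [mem_filter, mem_univ, true_and]
    constructor
    · rintro ⟨_, h⟩; exact h
    · intro h; exact ⟨h ▸ hj, h⟩
  · intro S hS
    rw [(Finset.mem_filter.mp hS).2]

theorem Gp_eq {n : ℕ} (f : (Fin n → Bool) → ℝ) (d : ℕ)
    (hdeg : ∀ S : Finset (Fin n), d < S.card → fourier f S = 0) (t : ℝ) :
    Gp f t = ∑ j ∈ range (d + 1), lev f j * t ^ j :=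
  sum_by_level f d hdeg (fun j => t ^ j)

theorem Gd_eq {n : ℕ} (f : (Fin n → Bool) → ℝ) (d : ℕ)
    (hdeg : ∀ S : Finset (Fin n), d < S.card → fourier f S = 0) (t : ℝ) :
    Gd f t = ∑ j ∈ range (d + 1), lev f j * (j * t ^ (j - 1)) :=
  sum_by_level f d hdeg (fun j => j * t ^ (j - 1))

theorem linear_bound {n : ℕ} (f : (Fin n → Bool) → ℝ) (hf : ∀ x, f x = 1 ∨ f x = -1) (d : ℕ)
    (hdeg : ∀ S : Finset (Fin n), d < S.card → fourier f S = 0) :
    levelOne f ≤ Real.sqrt 3 / 2 * d + 4 / 5 := by
  rcases Nat.eq_zero_or_pos d with h0 | hd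
  · subst h0
    have : levelOne f = 0 := by
      unfold levelOne
      apply Finset.sum_eq_zero
      intro i _
      exact hdeg {i} (by simp)
    rw [this]
    norm_num
  · rw [← lev_one]
    apply poly_bound d hd (lev f)
    · intro t ht
      rw [← Gp_eq f d hdeg]
      exact Gp_abs_le f hf t ht
    · intro t ht
      rw [← Gp_eq f d hdeg, ← Gd_eq f d hdeg]
      exact star f hf d hdeg t ht

end Vale.Agent.Lib.P047.Lin
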