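import Mathlib

/-! # P047, linear bound: the generalised M. Riesz interpolation sum

Nodes `θ_k = (x + kπ)/d`, weights `w_k = 1/(4 d² sin²(θ_k/2))`, `k < 2d`.
Main fact (`exp_sum`): for `|m| ≤ d`,
`∑_k (-1)^k w_k e^{i m θ_k} = i m /(d sin x) + cos x / sin² x`.

PROOF (as carried out below).  Put `z_k = e^{i θ_k}`, so `z_k^{2d} = e^{2 i x}` and `z_k^d = (-1)^k e^{ix}`.
1. `(z_k - 1) ∑_{a<2d} z_k^a = e^{2ix} - 1`, `(z_k - 1)(z_k⁻¹ - 1) = 4 sin²(θ_k/2)`,
   `(e^{2ix} - 1)(e^{-2ix} - 1) = 4 sin² x`.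
   Hence `w_k = (∑_{a<2d} z_k^a)(∑_{b<2d} z_k^{-b}) / (4 d² sin² x)`.
2. `∑_{k<2d} z_k^j = 0` for `0 < |j| < 2d` (geometric sum), which gives `sum_wt`.
3. `F(m) = ∑_k (-1)^k w_k z_k^m` has vanishing second difference for `|m| < d` (by `wt_mul` and 2.),
   and `F(± d) = e^{± ix}/sin² x`; so `F` is the affine function of the statement. -/

namespace Vale.Agent.Lib.P047.Lin

open Finset

/-- The `k`-th node. -/
noncomputable def node (d : ℕ) (x : ℝ) (k : ℕ) : ℝ := (x + k * Real.pi) / d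

/-- The `k`-th weight. -/
noncomputable def wt (d : ℕ) (x : ℝ) (k : ℕ) : ℝ :=
  1 / (4 * (d : ℝ) ^ 2 * Real.sin (node d x k / 2) ^ 2)

/-- The exponential `e^{i m θ}`. -/
noncomputable def E (m : ℤ) (θ : ℝ) : ℂ := Complex.exp ((m : ℂ) * θ * Complex.I)

theorem sin_half_node_ne (d : ℕ) (hd : 0 < d) (x : ℝ) (hx : Real.sin x ≠ 0) (k : ℕ) :
    Real.sin (node d x k / 2) ≠ 0 := by
  intro h
  obtain ⟨j, hj⟩ := Real.sin_eq_zero_iff.1 h
  apply hx
  have hd' : (d : ℝ) ≠ 0 := by exact_mod_cast hd.ne'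
  have hxe : x = ((2 * d * j - k : ℤ) : ℝ) * Real.pi := by
    unfold node at hj
    field_simp at hj
    push_cast
    linarith
  rw [hxe]
  exact Real.sin_int_mul_pi _

theorem wt_pos (d : ℕ) (hd : 0 < d) (x : ℝ) (hx : Real.sin x ≠ 0) (k : ℕ) : 0 < wt d x k := by
  have h := sin_half_node_ne d hd x hx k
  have hd' : (0 : ℝ) < d := by exact_mod_cast hd
  unfold wt
  positivity

theorem two_sub_two_cos (θ : ℝ) : 2 - 2 * Real.cos θ = 4 * Real.sin (θ / 2) ^ 2 := by
  have h1 : Real.cos θ = Real.cos (2 * (θ / 2)) := by congr 1; ring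
  rw [h1, Real.cos_two_mul]
  have := Real.sin_sq_add_cos_sq (θ / 2)
  linarith

/-- `w_k (2 - 2 cos θ_k) = 1/d²`. -/
theorem wt_mul (d : ℕ) (hd : 0 < d) (x : ℝ) (hx : Real.sin x ≠ 0) (k : ℕ) :
    wt d x k * (2 - 2 * Real.cos (node d x k)) = 1 / (d : ℝ) ^ 2 := by
  have h := sin_half_node_ne d hd x hx k
  have hd' : (d : ℝ) ≠ 0 := by exact_mod_cast hd.ne'
  rw [two_sub_two_cos]
  unfold wt
  field_simp

theorem E_add (m n : ℤ) (θ : ℝ) : E (m + n) θ = E m θ * E n θ := by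
  unfold E
  rw [← Complex.exp_add]
  congr 1
  push_cast
  ring

theorem E_zero (θ : ℝ) : E 0 θ = 1 := by simp [E]

theorem E_natCast (a : ℕ) (θ : ℝ) : E (a : ℤ) θ = (E 1 θ) ^ a := by
  unfold E
  rw [← Complex.exp_nat_mul]
  congr 1
  push_cast
  ring

theorem E_neg_natCast (b : ℕ) (θ : ℝ) : E (-(b : ℤ)) θ = (E (-1) θ) ^ b := by
  unfold E
  rw [← Complex.exp_nat_mul]
  congr 1
  push_cast
  ring

theorem E_one_mul_neg_one (θ : ℝ) : E 1 θ * E (-1) θ = 1 := by
  rw [← E_add]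
  exact E_zero θ

theorem E_one_add_neg_one (θ : ℝ) : E 1 θ + E (-1) θ = 2 * (Real.cos θ : ℂ) := by
  unfold E
  rw [Complex.ofReal_cos, Complex.two_cos]
  congr 2 <;> (push_cast; ring)

theorem exp_add_exp_neg (y : ℝ) :
    Complex.exp ((y : ℂ) * Complex.I) + Complex.exp (-((y : ℂ) * Complex.I))
      = 2 * (Real.cos y : ℂ) := by
  rw [Complex.ofReal_cos, Complex.two_cos]
  congr 2
  ring

theorem E_two_d (d : ℕ) (hd : 0 < d) (x : ℝ) (k : ℕ) :
    (E 1 (node d x k)) ^ (2 * d) = Complex.exp (((2 * x : ℝ) : ℂ) * Complex.I) := by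
  have hd' : (d : ℂ) ≠ 0 := by exact_mod_cast hd.ne'
  unfold E node
  rw [← Complex.exp_nat_mul]
  have : ((2 * d : ℕ) : ℂ) * (((1 : ℤ) : ℂ) * (((x + k * Real.pi) / d : ℝ) : ℂ) * Complex.I)
      = ((2 * x : ℝ) : ℂ) * Complex.I + (k : ℂ) * (2 * Real.pi * Complex.I) := by
    push_cast
    field_simp
  rw [this, Complex.exp_add, Complex.exp_nat_mul_two_pi_mul_I, mul_one]

theorem E_neg_two_d (d : ℕ) (hd : 0 < d) (x : ℝ) (k : ℕ) :
    (E (-1) (node d x k)) ^ (2 * d) = Complex.exp (-(((2 * x : ℝ) : ℂ) * Complex.I)) := by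
  have h1 := E_two_d d hd x k
  have h2 : (E 1 (node d x k)) ^ (2 * d) * (E (-1) (node d x k)) ^ (2 * d) = 1 := by
    rw [← mul_pow, E_one_mul_neg_one, one_pow]
  rw [h1] at h2
  rw [Complex.exp_neg]
  exact eq_inv_of_mul_eq_one_right h2

theorem E_d (d : ℕ) (hd : 0 < d) (x : ℝ) (k : ℕ) :
    E (d : ℤ) (node d x k) = (-1 : ℂ) ^ k * Complex.exp ((x : ℂ) * Complex.I) := by
  have hd' : (d : ℂ) ≠ 0 := by exact_mod_cast hd.ne'
  unfold E node
  have : (((d : ℤ) : ℂ) * (((x + k * Real.pi) / d : ℝ) : ℂ) * Complex.I)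
      = (k : ℂ) * (Real.pi * Complex.I) + (x : ℂ) * Complex.I := by
    push_cast
    field_simp
    ring
  rw [this, Complex.exp_add, Complex.exp_nat_mul, Complex.exp_pi_mul_I]

/-- the weight as a product of two geometric sums -/
theorem wt_eq (d : ℕ) (hd : 0 < d) (x : ℝ) (hx : Real.sin x ≠ 0) (k : ℕ) :
    (wt d x k : ℂ) = (∑ a ∈ range (2 * d), E (a : ℤ) (node d x k))
      * (∑ b ∈ range (2 * d), E (-(b : ℤ)) (node d x k))
      / (4 * (d : ℂ) ^ 2 * (Real.sin x : ℂ) ^ 2) := by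
  have h := sin_half_node_ne d hd x hx k
  have hd' : (d : ℂ) ≠ 0 := by exact_mod_cast hd.ne'
  have hxc : (Real.sin x : ℂ) ≠ 0 := by exact_mod_cast hx
  have hc : (Real.sin (node d x k / 2) : ℂ) ≠ 0 := by exact_mod_cast h
  set θ := node d x k with hθ
  set z := E 1 θ with hz
  set z' := E (-1) θ with hz'
  simp only [E_natCast, E_neg_natCast]
  rw [← hz, ← hz']
  set S := ∑ a ∈ range (2 * d), z ^ a with hS
  set S' := ∑ b ∈ range (2 * d), z' ^ b with hS'
  have g1 : S * (z - 1) = Complex.exp (((2 * x : ℝ) : ℂ) * Complex.I) - 1 := by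
    rw [hS, geom_sum_mul, hz, hθ, E_two_d d hd]
  have g2 : S' * (z' - 1) = Complex.exp (-(((2 * x : ℝ) : ℂ) * Complex.I)) - 1 := by
    rw [hS', geom_sum_mul, hz', hθ, E_neg_two_d d hd]
  have p1 : (z - 1) * (z' - 1) = 4 * (Real.sin (θ / 2) : ℂ) ^ 2 := by
    have e1 : z * z' = 1 := E_one_mul_neg_one θ
    have e2 : z + z' = 2 * (Real.cos θ : ℂ) := E_one_add_neg_one θ
    have e3 : (2 : ℂ) - 2 * (Real.cos θ : ℂ) = 4 * (Real.sin (θ / 2) : ℂ) ^ 2 := by
      exact_mod_cast two_sub_two_cos θ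
    linear_combination e1 - e2 + e3
  have p2 : (Complex.exp (((2 * x : ℝ) : ℂ) * Complex.I) - 1)
      * (Complex.exp (-(((2 * x : ℝ) : ℂ) * Complex.I)) - 1) = 4 * (Real.sin x : ℂ) ^ 2 := by
    have e1 : Complex.exp (((2 * x : ℝ) : ℂ) * Complex.I)
        * Complex.exp (-(((2 * x : ℝ) : ℂ) * Complex.I)) = 1 := by
      rw [← Complex.exp_add, add_neg_cancel, Complex.exp_zero]
    have e2 := exp_add_exp_neg (2 * x)
    have e3 : (2 : ℂ) - 2 * (Real.cos (2 * x) : ℂ) = 4 * (Real.sin x : ℂ) ^ 2 := by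
      have := two_sub_two_cos (2 * x)
      rw [show 2 * x / 2 = x by ring] at this
      exact_mod_cast this
    linear_combination e1 - e2 + e3
  have key : S * S' * (4 * (Real.sin (θ / 2) : ℂ) ^ 2) = 4 * (Real.sin x : ℂ) ^ 2 := by
    rw [← p1, ← p2, ← g1, ← g2]
    ring
  unfold wt
  rw [← hθ]
  simp only [Complex.ofReal_div, Complex.ofReal_one, Complex.ofReal_mul, Complex.ofReal_pow,
    Complex.ofReal_ofNat, Complex.ofReal_natCast]
  have h4 : (4 : ℂ) ≠ 0 := by norm_num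
  rw [div_eq_div_iff (mul_ne_zero (mul_ne_zero h4 (pow_ne_zero 2 hd')) (pow_ne_zero 2 hc))
    (mul_ne_zero (mul_ne_zero h4 (pow_ne_zero 2 hd')) (pow_ne_zero 2 hxc))]
  linear_combination (-(d : ℂ) ^ 2) * key

/-- orthogonality -/
theorem sum_E_eq_zero (d : ℕ) (hd : 0 < d) (x : ℝ) (j : ℤ) (hj0 : j ≠ 0) (hj : |j| < 2 * (d : ℤ)) :
    ∑ k ∈ range (2 * d), E j (node d x k) = 0 := by
  have hd' : (d : ℂ) ≠ 0 := by exact_mod_cast hd.ne'
  set q := Complex.exp ((j : ℂ) * Real.pi / d * Complex.I) with hq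
  have hE : ∀ k : ℕ, E j (node d x k) = Complex.exp ((j : ℂ) * x / d * Complex.I) * q ^ k := by
    intro k
    unfold E node
    rw [hq, ← Complex.exp_nat_mul, ← Complex.exp_add]
    congr 1
    push_cast
    field_simp
  have hq1 : q ≠ 1 := by
    intro h
    rw [hq, Complex.exp_eq_one_iff] at h
    obtain ⟨n, hn⟩ := h
    have hpi : (Real.pi : ℂ) ≠ 0 := by exact_mod_cast Real.pi_ne_zero
    have h2 : (j : ℂ) = ((2 * d * n : ℤ) : ℂ) := by
      push_cast
      field_simp at hn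
      linear_combination hn
    have h3 : j = 2 * d * n := by exact_mod_cast h2
    have h4 : (2 * (d : ℤ)) ∣ j := ⟨n, h3⟩
    exact hj0 (Int.eq_zero_of_abs_lt_dvd h4 hj)
  have hqD : q ^ (2 * d) = 1 := by
    rw [hq, ← Complex.exp_nat_mul]
    have : ((2 * d : ℕ) : ℂ) * ((j : ℂ) * Real.pi / d * Complex.I)
        = (j : ℂ) * (2 * Real.pi * Complex.I) := by
      push_cast
      field_simp
    rw [this, Complex.exp_int_mul_two_pi_mul_I]
  simp only [hE]
  rw [← Finset.mul_sum, geom_sum_eq hq1, hqD, sub_self, zero_div, mul_zero]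

theorem sum_wt_complex (d : ℕ) (hd : 0 < d) (x : ℝ) (hx : Real.sin x ≠ 0) :
    ∑ k ∈ range (2 * d), (wt d x k : ℂ) = 1 / (Real.sin x : ℂ) ^ 2 := by
  have hd' : (d : ℂ) ≠ 0 := by exact_mod_cast hd.ne'
  have hxc : (Real.sin x : ℂ) ≠ 0 := by exact_mod_cast hx
  simp only [wt_eq d hd x hx]
  rw [← Finset.sum_div]
  have h1 : ∑ k ∈ range (2 * d), (∑ a ∈ range (2 * d), E (a : ℤ) (node d x k))
      * (∑ b ∈ range (2 * d), E (-(b : ℤ)) (node d x k))
      = ∑ a ∈ range (2 * d), ∑ b ∈ range (2 * d), ∑ k ∈ range (2 * d),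
          E ((a : ℤ) + -(b : ℤ)) (node d x k) := by
    simp only [Finset.sum_mul_sum, E_add]
    rw [Finset.sum_comm]
    refine Finset.sum_congr rfl fun a _ => ?_
    rw [Finset.sum_comm]
  rw [h1]
  have h2 : ∀ a ∈ range (2 * d), ∑ b ∈ range (2 * d), ∑ k ∈ range (2 * d),
      E ((a : ℤ) + -(b : ℤ)) (node d x k) = (2 * d : ℂ) := by
    intro a ha
    rw [Finset.sum_eq_single a]
    · simp [E_zero]
    · intro b hb hba
      apply sum_E_eq_zero d hd
      · intro h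
        apply hba
        omega
      · have := Finset.mem_range.1 ha
        have := Finset.mem_range.1 hb
        rw [abs_lt]
        constructor <;> omega
    · intro h
      exact absurd ha h
  rw [Finset.sum_congr rfl h2]
  simp only [Finset.sum_const, Finset.card_range, nsmul_eq_mul]
  push_cast
  field_simp
  ring

/-- The weights sum to `1/sin² x`. -/
theorem sum_wt (d : ℕ) (hd : 0 < d) (x : ℝ) (hx : Real.sin x ≠ 0) :
    ∑ k ∈ range (2 * d), wt d x k = 1 / Real.sin x ^ 2 := by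
  have h := sum_wt_complex d hd x hx
  exact_mod_cast h

/-- the sum of the statement -/
noncomputable def FF (d : ℕ) (x : ℝ) (m : ℤ) : ℂ :=
  ∑ k ∈ range (2 * d), ((-1 : ℂ) ^ k * (wt d x k : ℂ) * E m (node d x k))

theorem neg_one_pow_mul_E (d : ℕ) (hd : 0 < d) (x : ℝ) (k : ℕ) (m : ℤ) :
    (-1 : ℂ) ^ k * E m (node d x k)
      = Complex.exp (-((x : ℂ) * Complex.I)) * E (m + d) (node d x k) := by
  rw [E_add, E_d d hd]
  have h1 : Complex.exp (-((x : ℂ) * Complex.I)) * Complex.exp ((x : ℂ) * Complex.I) = 1 := by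
    rw [← Complex.exp_add, neg_add_cancel, Complex.exp_zero]
  linear_combination (-(-1 : ℂ) ^ k * E m (node d x k)) * h1

theorem FF_d (d : ℕ) (hd : 0 < d) (x : ℝ) (hx : Real.sin x ≠ 0) :
    FF d x d = Complex.exp ((x : ℂ) * Complex.I) / (Real.sin x : ℂ) ^ 2 := by
  unfold FF
  have h : ∀ k ∈ range (2 * d), (-1 : ℂ) ^ k * (wt d x k : ℂ) * E (d : ℤ) (node d x k)
      = Complex.exp ((x : ℂ) * Complex.I) * (wt d x k : ℂ) := by
    intro k _
    rw [E_d d hd]
    have : ((-1 : ℂ) ^ k) * ((-1 : ℂ) ^ k) = 1 := by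
      rw [← mul_pow]; simp
    linear_combination (Complex.exp ((x : ℂ) * Complex.I) * (wt d x k : ℂ)) * this
  rw [Finset.sum_congr rfl h, ← Finset.mul_sum, sum_wt_complex d hd x hx]
  ring

theorem FF_neg_d (d : ℕ) (hd : 0 < d) (x : ℝ) (hx : Real.sin x ≠ 0) :
    FF d x (-(d : ℤ)) = Complex.exp (-((x : ℂ) * Complex.I)) / (Real.sin x : ℂ) ^ 2 := by
  unfold FF
  have h : ∀ k ∈ range (2 * d), (-1 : ℂ) ^ k * (wt d x k : ℂ) * E (-(d : ℤ)) (node d x k)
      = Complex.exp (-((x : ℂ) * Complex.I)) * (wt d x k : ℂ) := by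
    intro k _
    have := neg_one_pow_mul_E d hd x k (-(d : ℤ))
    rw [neg_add_cancel, E_zero, mul_one] at this
    linear_combination (wt d x k : ℂ) * this
  rw [Finset.sum_congr rfl h, ← Finset.mul_sum, sum_wt_complex d hd x hx]
  ring

theorem FF_rec (d : ℕ) (hd : 0 < d) (x : ℝ) (hx : Real.sin x ≠ 0) (m : ℤ) (hm : |m| < (d : ℤ)) :
    FF d x (m + 1) + FF d x (m + -1) = 2 * FF d x m := by
  have hd' : (d : ℂ) ≠ 0 := by exact_mod_cast hd.ne'
  have hT : ∑ k ∈ range (2 * d), (-1 : ℂ) ^ k * E m (node d x k) = 0 := by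
    simp only [neg_one_pow_mul_E d hd]
    rw [← Finset.mul_sum, sum_E_eq_zero d hd x (m + d), mul_zero]
    · have := abs_lt.1 hm
      omega
    · have := abs_lt.1 hm
      rw [abs_lt]
      constructor <;> omega
  unfold FF
  rw [← Finset.sum_add_distrib, Finset.mul_sum, ← sub_eq_zero, ← Finset.sum_sub_distrib]
  have h : ∀ k ∈ range (2 * d),
      ((-1 : ℂ) ^ k * (wt d x k : ℂ) * E (m + 1) (node d x k)
        + (-1 : ℂ) ^ k * (wt d x k : ℂ) * E (m + -1) (node d x k))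
        - 2 * ((-1 : ℂ) ^ k * (wt d x k : ℂ) * E m (node d x k))
      = (-1 / (d : ℂ) ^ 2) * ((-1 : ℂ) ^ k * E m (node d x k)) := by
    intro k _
    rw [E_add, E_add]
    have e2 := E_one_add_neg_one (node d x k)
    have e3 : (wt d x k : ℂ) * (2 - 2 * (Real.cos (node d x k) : ℂ)) = 1 / (d : ℂ) ^ 2 := by
      have := wt_mul d hd x hx k
      rw [← Complex.ofReal_inj] at this
      simpa only [Complex.ofReal_mul, Complex.ofReal_sub, Complex.ofReal_ofNat, Complex.ofReal_div,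
        Complex.ofReal_one, Complex.ofReal_pow, Complex.ofReal_natCast] using this
    linear_combination ((-1 : ℂ) ^ k * (wt d x k : ℂ) * E m (node d x k)) * e2
      - ((-1 : ℂ) ^ k * E m (node d x k)) * e3
  rw [Finset.sum_congr rfl h, ← Finset.mul_sum, hT, mul_zero]

/-- a sequence with vanishing second differences and vanishing end values vanishes -/
theorem seq_zero (n : ℕ) (hn : 0 < n) (h : ℕ → ℂ) (h0 : h 0 = 0) (hn0 : h n = 0)
    (hrec : ∀ t, t + 2 ≤ n → h (t + 2) + h t = 2 * h (t + 1)) : ∀ t, t ≤ n → h t = 0 := by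
  have key : ∀ t, t + 1 ≤ n → h t = t * h 1 ∧ h (t + 1) = (t + 1 : ℕ) * h 1 := by
    intro t
    induction t with
    | zero => intro _; simp [h0]
    | succ t ih =>
      intro ht
      obtain ⟨a, b⟩ := ih (by omega)
      refine ⟨b, ?_⟩
      have := hrec t (by omega)
      push_cast at a b ⊢
      linear_combination this - a + 2 * b
  have h1 : h 1 = 0 := by
    obtain ⟨n', rfl⟩ : ∃ n', n = n' + 1 := ⟨n - 1, by omega⟩
    have := (key n' le_rfl).2
    rw [hn0] at this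
    have hne : ((n' + 1 : ℕ) : ℂ) ≠ 0 := by exact_mod_cast Nat.succ_ne_zero n'
    exact (mul_eq_zero.1 this.symm).resolve_left hne
  intro t ht
  rcases Nat.lt_or_ge t n with hlt | hge
  · rw [(key t (by omega)).1, h1, mul_zero]
  · have : t = n := by omega
    rw [this, hn0]

/-- The generalised M. Riesz sum on exponentials. -/
theorem exp_sum (d : ℕ) (hd : 0 < d) (x : ℝ) (hx : Real.sin x ≠ 0) (m : ℤ) (hm : |m| ≤ (d : ℤ)) :
    ∑ k ∈ range (2 * d), ((-1 : ℂ) ^ k * (wt d x k : ℂ) * E m (node d x k))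
      = ((m : ℂ) * Complex.I) / ((d : ℂ) * (Real.sin x : ℂ))
        + (Real.cos x : ℂ) / (Real.sin x : ℂ) ^ 2 := by
  have hd' : (d : ℂ) ≠ 0 := by exact_mod_cast hd.ne'
  have hxc : (Real.sin x : ℂ) ≠ 0 := by exact_mod_cast hx
  set G : ℤ → ℂ := fun m => ((m : ℂ) * Complex.I) / ((d : ℂ) * (Real.sin x : ℂ))
        + (Real.cos x : ℂ) / (Real.sin x : ℂ) ^ 2 with hG
  have hexp : Complex.exp ((x : ℂ) * Complex.I) = (Real.cos x : ℂ) + (Real.sin x : ℂ) * Complex.I := by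
    rw [Complex.exp_mul_I, Complex.ofReal_cos, Complex.ofReal_sin]
  have hexp' : Complex.exp (-((x : ℂ) * Complex.I))
      = (Real.cos x : ℂ) - (Real.sin x : ℂ) * Complex.I := by
    rw [← neg_mul, Complex.exp_mul_I, Complex.cos_neg, Complex.sin_neg, Complex.ofReal_cos,
      Complex.ofReal_sin]
    ring
  have hz := seq_zero (2 * d) (by omega) (fun t => FF d x (-(d : ℤ) + t) - G (-(d : ℤ) + t))
    (by
      simp only [Nat.cast_zero, add_zero]
      rw [FF_neg_d d hd x hx, hexp', hG]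
      push_cast
      field_simp
      ring)
    (by
      have : -(d : ℤ) + ((2 * d : ℕ) : ℤ) = d := by push_cast; ring
      simp only [this]
      rw [FF_d d hd x hx, hexp, hG]
      push_cast
      field_simp
      ring)
    (by
      intro t ht
      have hr := FF_rec d hd x hx (-(d : ℤ) + (t + 1 : ℕ)) (by
        rw [abs_lt]
        constructor <;> push_cast <;> omega)
      have e1 : -(d : ℤ) + ((t + 1 : ℕ) : ℤ) + 1 = -(d : ℤ) + ((t + 2 : ℕ) : ℤ) := by
        push_cast; ring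
      have e2 : -(d : ℤ) + ((t + 1 : ℕ) : ℤ) + -1 = -(d : ℤ) + (t : ℤ) := by
        push_cast; ring
      rw [e1, e2] at hr
      simp only [hG]
      push_cast at hr ⊢
      linear_combination hr)
  have hm' := abs_le.1 hm
  have := hz (m + d).toNat (by omega)
  have e : -(d : ℤ) + ((m + d).toNat : ℤ) = m := by
    rw [Int.toNat_of_nonneg (by omega)]
    ring
  rw [e, sub_eq_zero] at this
  exact this

end Vale.Agent.Lib.P047.Lin
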