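import Vale.Agent.Lib.P047.LinRoots

/-! # P047, linear bound: trigonometric polynomials with their derivatives

`IsTP d F0 F1`: `F0 = ∑_α c_α e^{i m_α θ}` with all `|m_α| ≤ d` and `F1 = ∑_α c_α (i m_α) e^{i m_α θ}`
(no calculus is used: the derivative is carried along formally).

PROOF PLAN.  All closure lemmas are by exhibiting the index type: `const`: `Unit`, `m = 0`;
`add`: `ι ⊕ ι'` (`Fintype.sum_sum_type`); `smul`: same `ι`, `a * c`; `mul`: `ι × ι'`, `c α * c' β`, `m α + m' β`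
(`E (m + m') θ = E m θ * E m' θ`, `Fintype.sum_prod_type`, `Finset.sum_mul_sum`); `sum`: induction on the finset
(classical) from `const 0` and `add`; `sin`: `Bool`, `c = ∓ i/2`, `m = ± 1`;
`sin_pow`: induction on `j` with `mul` and `sin` (then rewrite the functions with `funext`, cases `j = 0`);
`poly_sin`: `sum` of `smul (a j)` of `mono` of `sin_pow j`, then push casts;
`deriv`: same `ι`, `m`, coefficients `c α * (i m α)`, `F2 = TT c m 2`;
`riesz`: `E m (θ0 + θ_k) = E m θ0 * E m θ_k`, swap the two sums and use `exp_sum` for each `α`. -/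

namespace Vale.Agent.Lib.P047.Lin

open Finset

/-- `∑_α c_α (i m_α)^p e^{i m_α θ}`: the `p`-th derivative of the trigonometric polynomial with
coefficients `c` and frequencies `m`. -/
noncomputable def TT {ι : Type} [Fintype ι] (c : ι → ℂ) (m : ι → ℤ) (p : ℕ) (θ : ℝ) : ℂ :=
  ∑ α, c α * ((m α : ℂ) * Complex.I) ^ p * E (m α) θ

/-- `F0` is a trigonometric polynomial of degree at most `d` and `F1` is its derivative. -/
def IsTP (d : ℕ) (F0 F1 : ℝ → ℂ) : Prop :=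
  ∃ (ι : Type) (_ : Fintype ι) (c : ι → ℂ) (m : ι → ℤ),
    (∀ α, |m α| ≤ (d : ℤ)) ∧ (∀ θ, F0 θ = TT c m 0 θ) ∧ (∀ θ, F1 θ = TT c m 1 θ)

theorem E_add_freq (m m' : ℤ) (θ : ℝ) : E (m + m') θ = E m θ * E m' θ := by
  unfold E
  rw [← Complex.exp_add]
  congr 1
  push_cast
  ring

theorem E_add_arg (m : ℤ) (θ θ' : ℝ) : E m (θ + θ') = E m θ * E m θ' := by
  unfold E
  rw [← Complex.exp_add]
  congr 1
  push_cast
  ring

theorem E_zero_freq (θ : ℝ) : E 0 θ = 1 := by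
  simp [E]

theorem IsTP.mono {d e : ℕ} (hde : d ≤ e) {F0 F1 : ℝ → ℂ} (h : IsTP d F0 F1) : IsTP e F0 F1 := by
  obtain ⟨ι, inst, c, m, hm, h0, h1⟩ := h
  exact ⟨ι, inst, c, m, fun α => (hm α).trans (by exact_mod_cast hde), h0, h1⟩

theorem IsTP.const (d : ℕ) (a : ℂ) : IsTP d (fun _ => a) (fun _ => 0) := by
  refine ⟨Unit, inferInstance, fun _ => a, fun _ => 0, ?_, ?_, ?_⟩
  · intro _
    simp
  · intro θ
    simp [TT, E_zero_freq]
  · intro θ
    simp [TT]

theorem IsTP.add {d : ℕ} {F0 F1 H0 H1 : ℝ → ℂ} (h : IsTP d F0 F1) (h' : IsTP d H0 H1) :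
    IsTP d (fun θ => F0 θ + H0 θ) (fun θ => F1 θ + H1 θ) := by
  obtain ⟨ι, inst, c, m, hm, h0, h1⟩ := h
  obtain ⟨ι', inst', c', m', hm', h0', h1'⟩ := h'
  refine ⟨ι ⊕ ι', inferInstance, Sum.elim c c', Sum.elim m m', ?_, ?_, ?_⟩
  · rintro (α | α)
    · exact hm α
    · exact hm' α
  · intro θ
    simp only [h0, h0', TT, Fintype.sum_sum_type, Sum.elim_inl, Sum.elim_inr]
  · intro θ
    simp only [h1, h1', TT, Fintype.sum_sum_type, Sum.elim_inl, Sum.elim_inr]

theorem IsTP.smul {d : ℕ} (a : ℂ) {F0 F1 : ℝ → ℂ} (h : IsTP d F0 F1) :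
    IsTP d (fun θ => a * F0 θ) (fun θ => a * F1 θ) := by
  obtain ⟨ι, inst, c, m, hm, h0, h1⟩ := h
  refine ⟨ι, inst, fun α => a * c α, m, hm, ?_, ?_⟩
  · intro θ
    simp only [h0, TT, Finset.mul_sum, mul_assoc]
  · intro θ
    simp only [h1, TT, Finset.mul_sum, mul_assoc]

theorem IsTP.mul {d e : ℕ} {F0 F1 H0 H1 : ℝ → ℂ} (h : IsTP d F0 F1) (h' : IsTP e H0 H1) :
    IsTP (d + e) (fun θ => F0 θ * H0 θ) (fun θ => F1 θ * H0 θ + F0 θ * H1 θ) := by
  obtain ⟨ι, inst, c, m, hm, h0, h1⟩ := h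
  obtain ⟨ι', inst', c', m', hm', h0', h1'⟩ := h'
  refine ⟨ι × ι', inferInstance, fun p => c p.1 * c' p.2, fun p => m p.1 + m' p.2, ?_, ?_, ?_⟩
  · intro p
    have := abs_add_le (m p.1) (m' p.2)
    have h2 := hm p.1
    have h3 := hm' p.2
    push_cast
    linarith
  · intro θ
    simp only [h0, h0', TT, Fintype.sum_prod_type, Finset.sum_mul_sum, E_add_freq, pow_zero,
      mul_one]
    refine Finset.sum_congr rfl fun α _ => Finset.sum_congr rfl fun β _ => ?_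
    ring
  · intro θ
    simp only [h0, h0', h1, h1', TT, Fintype.sum_prod_type, Finset.sum_mul_sum, E_add_freq,
      pow_zero, pow_one, mul_one, ← Finset.sum_add_distrib]
    refine Finset.sum_congr rfl fun α _ => Finset.sum_congr rfl fun β _ => ?_
    push_cast
    ring

theorem IsTP.sum {d : ℕ} {κ : Type} (s : Finset κ) (F0 F1 : κ → ℝ → ℂ)
    (h : ∀ j ∈ s, IsTP d (F0 j) (F1 j)) :
    IsTP d (fun θ => ∑ j ∈ s, F0 j θ) (fun θ => ∑ j ∈ s, F1 j θ) := by
  classical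
  induction s using Finset.induction_on with
  | empty =>
    simpa using IsTP.const d 0
  | insert j s hj ih =>
    have h1 := (h j (Finset.mem_insert_self j s)).add
      (ih fun i hi => h i (Finset.mem_insert_of_mem hi))
    simpa only [Finset.sum_insert hj] using h1

theorem IsTP.sin : IsTP 1 (fun θ => (Real.sin θ : ℂ)) (fun θ => (Real.cos θ : ℂ)) := by
  refine ⟨Bool, inferInstance, fun b => if b then -Complex.I / 2 else Complex.I / 2,
    fun b => if b then 1 else -1, ?_, ?_, ?_⟩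
  · intro b
    cases b <;> simp
  · intro θ
    simp only [TT, Fintype.sum_bool, E, Complex.ofReal_sin, Complex.sin, pow_zero, mul_one,
      if_true, Bool.false_eq_true, if_false]
    have e1 : ((1 : ℤ) : ℂ) * (θ : ℂ) * Complex.I = (θ : ℂ) * Complex.I := by push_cast; ring
    have e2 : ((-1 : ℤ) : ℂ) * (θ : ℂ) * Complex.I = -(θ : ℂ) * Complex.I := by push_cast; ring
    rw [e1, e2]
    ring
  · intro θ
    simp only [TT, Fintype.sum_bool, E, Complex.ofReal_cos, Complex.cos, pow_one,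
      if_true, Bool.false_eq_true, if_false]
    have e1 : ((1 : ℤ) : ℂ) * (θ : ℂ) * Complex.I = (θ : ℂ) * Complex.I := by push_cast; ring
    have e2 : ((-1 : ℤ) : ℂ) * (θ : ℂ) * Complex.I = -(θ : ℂ) * Complex.I := by push_cast; ring
    rw [e1, e2]
    push_cast
    have hI : Complex.I * Complex.I = -1 := Complex.I_mul_I
    linear_combination ((1 / 2 : ℂ) * Complex.exp ((θ : ℂ) * Complex.I)
      + (1 / 2 : ℂ) * Complex.exp (-(θ : ℂ) * Complex.I)) * hI

theorem IsTP.sin_pow (j : ℕ) :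
    IsTP j (fun θ => (Real.sin θ : ℂ) ^ j)
      (fun θ => (j : ℂ) * (Real.sin θ : ℂ) ^ (j - 1) * (Real.cos θ : ℂ)) := by
  induction j with
  | zero =>
    simpa using IsTP.const 0 1
  | succ j ih =>
    have h1 := ih.mul IsTP.sin
    have e0 : (fun θ : ℝ => (Real.sin θ : ℂ) ^ (j + 1))
        = fun θ : ℝ => (Real.sin θ : ℂ) ^ j * (Real.sin θ : ℂ) := by
      funext θ
      rw [pow_succ]
    have e1 : (fun θ : ℝ => ((j + 1 : ℕ) : ℂ) * (Real.sin θ : ℂ) ^ (j + 1 - 1) * (Real.cos θ : ℂ))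
        = fun θ : ℝ => (j : ℂ) * (Real.sin θ : ℂ) ^ (j - 1) * (Real.cos θ : ℂ) * (Real.sin θ : ℂ)
          + (Real.sin θ : ℂ) ^ j * (Real.cos θ : ℂ) := by
      funext θ
      rcases Nat.eq_zero_or_pos j with rfl | hj
      · simp
      · obtain ⟨i, rfl⟩ : ∃ i, j = i + 1 := ⟨j - 1, by omega⟩
        simp only [Nat.add_sub_cancel]
        push_cast
        ring
    rw [e0, e1]
    exact h1

/-- The derivative is again a trigonometric polynomial of degree at most `d`. -/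
theorem IsTP.deriv {d : ℕ} {F0 F1 : ℝ → ℂ} (h : IsTP d F0 F1) : ∃ F2, IsTP d F1 F2 := by
  obtain ⟨ι, inst, c, m, hm, h0, h1⟩ := h
  refine ⟨TT (fun α => c α * ((m α : ℂ) * Complex.I)) m 1, ι, inst,
    fun α => c α * ((m α : ℂ) * Complex.I), m, hm, ?_, fun θ => rfl⟩
  intro θ
  simp only [h1, TT, pow_one, pow_zero, mul_one]

/-- The generalised M. Riesz interpolation formula, centred at `θ0`. -/
theorem IsTP.riesz {d : ℕ} {F0 F1 : ℝ → ℂ} (h : IsTP d F0 F1) (hd : 0 < d) (x : ℝ)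
    (hx : Real.sin x ≠ 0) (θ0 : ℝ) :
    ∑ k ∈ range (2 * d), ((-1 : ℂ) ^ k * (wt d x k : ℂ) * F0 (θ0 + node d x k))
      = F1 θ0 / ((d : ℂ) * (Real.sin x : ℂ))
        + F0 θ0 * (Real.cos x : ℂ) / (Real.sin x : ℂ) ^ 2 := by
  obtain ⟨ι, inst, c, m, hm, h0, h1⟩ := h
  simp only [h0, h1, TT, pow_zero, pow_one, mul_one, E_add_arg, Finset.mul_sum]
  rw [Finset.sum_comm]
  rw [Finset.sum_div, Finset.sum_mul, Finset.sum_div, ← Finset.sum_add_distrib]
  refine Finset.sum_congr rfl fun α _ => ?_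
  have hs := exp_sum d hd x hx (m α) (hm α)
  calc ∑ k ∈ range (2 * d), (-1 : ℂ) ^ k * (wt d x k : ℂ) *
        (c α * (E (m α) θ0 * E (m α) (node d x k)))
      = c α * E (m α) θ0 *
          ∑ k ∈ range (2 * d), ((-1 : ℂ) ^ k * (wt d x k : ℂ) * E (m α) (node d x k)) := by
        rw [Finset.mul_sum]
        refine Finset.sum_congr rfl fun k _ => ?_
        ring
    _ = _ := by
        rw [hs]
        ring

/-- `G (sin θ)` for a real polynomial `G = ∑_{j ≤ d} a_j t^j`, with its derivative. -/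
theorem IsTP.poly_sin (d : ℕ) (a : ℕ → ℝ) :
    IsTP d (fun θ => ((∑ j ∈ range (d + 1), a j * Real.sin θ ^ j : ℝ) : ℂ))
      (fun θ => ((Real.cos θ * ∑ j ∈ range (d + 1), a j * (j * Real.sin θ ^ (j - 1)) : ℝ) : ℂ)) := by
  have h1 := IsTP.sum (d := d) (range (d + 1))
    (fun j θ => (a j : ℂ) * (Real.sin θ : ℂ) ^ j)
    (fun j θ => (a j : ℂ) * ((j : ℂ) * (Real.sin θ : ℂ) ^ (j - 1) * (Real.cos θ : ℂ)))
    (fun j hj => ((IsTP.sin_pow j).mono (Nat.lt_succ_iff.1 (Finset.mem_range.1 hj))).smul (a j : ℂ))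
  have e0 : (fun θ : ℝ => ((∑ j ∈ range (d + 1), a j * Real.sin θ ^ j : ℝ) : ℂ))
      = fun θ : ℝ => ∑ j ∈ range (d + 1), (a j : ℂ) * (Real.sin θ : ℂ) ^ j := by
    funext θ
    push_cast
    rfl
  have e1 : (fun θ : ℝ =>
        ((Real.cos θ * ∑ j ∈ range (d + 1), a j * (j * Real.sin θ ^ (j - 1)) : ℝ) : ℂ))
      = fun θ : ℝ => ∑ j ∈ range (d + 1),
          (a j : ℂ) * ((j : ℂ) * (Real.sin θ : ℂ) ^ (j - 1) * (Real.cos θ : ℂ)) := by
    funext θ
    push_cast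
    rw [Finset.mul_sum]
    refine Finset.sum_congr rfl fun j _ => ?_
    ring
  rw [e0, e1]
  exact h1

end Vale.Agent.Lib.P047.Lin
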