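import Vale.Agent.Lib.P047.Cube

namespace Vale.Agent.Lib.P047

open Finset Polynomial

/-- a point of the subcube -/
def pt {n : ℕ} (ρ : Fin n → Option Bool) : Fin n → Bool := fun i => (ρ i).getD true

lemma inCube_pt {n : ℕ} (ρ : Fin n → Option Bool) : InCube ρ (pt ρ) := by
  intro i
  rcases h : ρ i with _ | b
  · exact Or.inl rfl
  · right; simp [pt, h]

lemma partition_sum_one {n : ℕ} (P : Finset (Fin n → Option Bool))
    (hP : ∀ x, ∃! ρ, ρ ∈ P ∧ InCube ρ x) {R : Type*} [AddCommMonoid R] (F : (Fin n → Option Bool) → R)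
    (x : Fin n → Bool) :
    ∃ ρ ∈ P, InCube ρ x ∧ ∑ σ ∈ P, (if InCube σ x then F σ else 0) = F ρ := by
  obtain ⟨ρ, ⟨hρ, hx⟩, huniq⟩ := hP x
  refine ⟨ρ, hρ, hx, ?_⟩
  rw [Finset.sum_eq_single ρ]
  · rw [if_pos hx]
  · intro σ hσ hne
    rw [if_neg]
    intro h
    exact hne (huniq σ ⟨hσ, h⟩)
  · intro h; exact absurd hρ h

lemma partition_rep {n : ℕ} (P : Finset (Fin n → Option Bool))
    (hP : ∀ x, ∃! ρ, ρ ∈ P ∧ InCube ρ x) (f : (Fin n → Bool) → ℝ)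
    (hconst : ∀ ρ ∈ P, ∀ x y, InCube ρ x → InCube ρ y → f x = f y) (x : Fin n → Bool) :
    f x = ∑ ρ ∈ P, (if InCube ρ x then f (pt ρ) else 0) := by
  obtain ⟨ρ, hρ, hx, hs⟩ := partition_sum_one P hP (fun ρ => f (pt ρ)) x
  rw [hs]
  exact hconst ρ hρ x (pt ρ) hx (inCube_pt ρ)

lemma levelOne_partition {n : ℕ} (P : Finset (Fin n → Option Bool))
    (hP : ∀ x, ∃! ρ, ρ ∈ P ∧ InCube ρ x) (f : (Fin n → Bool) → ℝ)
    (hconst : ∀ ρ ∈ P, ∀ x y, InCube ρ x → InCube ρ y → f x = f y) :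
    levelOne f = ∑ ρ ∈ P, f (pt ρ) * ((1 / 2 : ℝ) ^ codim ρ * fixedSum ρ) := by
  rw [levelOne_eq]
  have h1 : ∀ x : Fin n → Bool, f x * tot x
      = ∑ ρ ∈ P, f (pt ρ) * (if InCube ρ x then tot x else 0) := by
    intro x
    rw [partition_rep P hP f hconst x, Finset.sum_mul]
    apply Finset.sum_congr rfl
    intro ρ _
    by_cases h : InCube ρ x <;> simp [h]
  simp_rw [h1]
  rw [Finset.sum_comm]
  simp_rw [← Finset.mul_sum, sum_cube_tot, vol_eq]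
  rw [Finset.sum_div]
  apply Finset.sum_congr rfl
  intro ρ _
  have : (2 : ℝ) ^ n ≠ 0 := by positivity
  field_simp

lemma levelOne_partition_le {n : ℕ} (P : Finset (Fin n → Option Bool))
    (hP : ∀ x, ∃! ρ, ρ ∈ P ∧ InCube ρ x) (f : (Fin n → Bool) → ℝ) (hf : ∀ x, |f x| ≤ 1)
    (hconst : ∀ ρ ∈ P, ∀ x y, InCube ρ x → InCube ρ y → f x = f y) :
    levelOne f ≤ ∑ ρ ∈ P, (1 / 2 : ℝ) ^ codim ρ * |fixedSum ρ| := by
  rw [levelOne_partition P hP f hconst]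
  apply Finset.sum_le_sum
  intro ρ _
  have h1 : f (pt ρ) * ((1 / 2 : ℝ) ^ codim ρ * fixedSum ρ)
      = (1 / 2 : ℝ) ^ codim ρ * (f (pt ρ) * fixedSum ρ) := by ring
  rw [h1]
  apply mul_le_mul_of_nonneg_left _ (by positivity)
  calc f (pt ρ) * fixedSum ρ ≤ |f (pt ρ) * fixedSum ρ| := le_abs_self _
    _ = |f (pt ρ)| * |fixedSum ρ| := abs_mul _ _
    _ ≤ 1 * |fixedSum ρ| := mul_le_mul_of_nonneg_right (hf _) (abs_nonneg _)
    _ = _ := one_mul _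

/-- summing a function over the cells of a partition -/
lemma partition_sum {n : ℕ} (P : Finset (Fin n → Option Bool))
    (hP : ∀ x, ∃! ρ, ρ ∈ P ∧ InCube ρ x) {R : Type*} [AddCommMonoid R] (G : (Fin n → Bool) → R) :
    ∑ ρ ∈ P, ∑ x : Fin n → Bool, (if InCube ρ x then G x else 0) = ∑ x : Fin n → Bool, G x := by
  rw [Finset.sum_comm]
  apply Finset.sum_congr rfl
  intro x _
  obtain ⟨ρ, _, _, hs⟩ := partition_sum_one P hP (fun _ => G x) x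
  exact hs

lemma partition_mass {n : ℕ} (P : Finset (Fin n → Option Bool))
    (hP : ∀ x, ∃! ρ, ρ ∈ P ∧ InCube ρ x) : ∑ ρ ∈ P, (1 / 2 : ℝ) ^ codim ρ = 1 := by
  have h := partition_sum P hP (fun _ => (1 : ℝ))
  have h2 : ∀ ρ : Fin n → Option Bool,
      ∑ x : Fin n → Bool, (if InCube ρ x then (1 : ℝ) else 0) = 2 ^ n * (1 / 2 : ℝ) ^ codim ρ :=
    fun ρ => vol_eq ρ
  simp_rw [h2] at h
  rw [← Finset.mul_sum] at h
  simp only [Finset.sum_const, Finset.card_univ, Fintype.card_pi, Fintype.card_bool,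
    Finset.prod_const, Fintype.card_fin, nsmul_eq_mul, mul_one] at h
  have h3 : (2 : ℝ) ^ n ≠ 0 := by positivity
  push_cast at h
  field_simp at h
  linarith

lemma partition_second_moment {n : ℕ} (P : Finset (Fin n → Option Bool))
    (hP : ∀ x, ∃! ρ, ρ ∈ P ∧ InCube ρ x) :
    ∑ ρ ∈ P, (1 / 2 : ℝ) ^ codim ρ * (fixedSum ρ * fixedSum ρ)
      = ∑ ρ ∈ P, (1 / 2 : ℝ) ^ codim ρ * codim ρ := by
  have h := partition_sum P hP (fun x => tot x * tot x)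
  simp_rw [sum_cube_tot_sq, sum_tot_sq, vol_eq] at h
  have hm := partition_mass P hP
  have h3 : (2 : ℝ) ^ n ≠ 0 := by positivity
  have h4 : ∑ ρ ∈ P, (fixedSum ρ * fixedSum ρ + n - codim ρ) * (2 ^ n * (1 / 2 : ℝ) ^ codim ρ)
      = 2 ^ n * (∑ ρ ∈ P, (1 / 2 : ℝ) ^ codim ρ * (fixedSum ρ * fixedSum ρ)
        + n * ∑ ρ ∈ P, (1 / 2 : ℝ) ^ codim ρ - ∑ ρ ∈ P, (1 / 2 : ℝ) ^ codim ρ * codim ρ) := by
    rw [Finset.mul_sum, ← Finset.sum_add_distrib, ← Finset.sum_sub_distrib, Finset.mul_sum]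
    apply Finset.sum_congr rfl
    intro ρ _
    ring
  rw [h4, hm] at h
  have h5 : (2 : ℝ) ^ n * (∑ ρ ∈ P, (1 / 2 : ℝ) ^ codim ρ * (fixedSum ρ * fixedSum ρ)
        + n * 1 - ∑ ρ ∈ P, (1 / 2 : ℝ) ^ codim ρ * codim ρ) = 2 ^ n * n := by
    rw [h]; ring
  have h6 := mul_left_cancel₀ h3 h5
  linarith

/-- square-root bound in terms of the average codimension -/
theorem partition_avg_bound {n : ℕ} (P : Finset (Fin n → Option Bool))
    (hP : ∀ x, ∃! ρ, ρ ∈ P ∧ InCube ρ x) (f : (Fin n → Bool) → ℝ) (hf : ∀ x, |f x| ≤ 1)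
    (hconst : ∀ ρ ∈ P, ∀ x y, InCube ρ x → InCube ρ y → f x = f y) :
    levelOne f ≤ Real.sqrt (∑ ρ ∈ P, (1 / 2 : ℝ) ^ codim ρ * codim ρ) := by
  refine (levelOne_partition_le P hP f hf hconst).trans ?_
  apply Real.le_sqrt_of_sq_le
  rw [← partition_second_moment P hP]
  have hcs := Finset.sum_mul_sq_le_sq_mul_sq P (fun ρ => Real.sqrt ((1 / 2 : ℝ) ^ codim ρ))
    (fun ρ => Real.sqrt ((1 / 2 : ℝ) ^ codim ρ) * |fixedSum ρ|)
  have e1 : ∀ ρ : Fin n → Option Bool, Real.sqrt ((1 / 2 : ℝ) ^ codim ρ)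
      * (Real.sqrt ((1 / 2 : ℝ) ^ codim ρ) * |fixedSum ρ|) = (1 / 2 : ℝ) ^ codim ρ * |fixedSum ρ| := by
    intro ρ
    rw [← mul_assoc, Real.mul_self_sqrt (by positivity)]
  have e2 : ∀ ρ : Fin n → Option Bool, Real.sqrt ((1 / 2 : ℝ) ^ codim ρ) ^ 2
      = (1 / 2 : ℝ) ^ codim ρ := by
    intro ρ
    rw [Real.sq_sqrt (by positivity)]
  have e3 : ∀ ρ : Fin n → Option Bool, (Real.sqrt ((1 / 2 : ℝ) ^ codim ρ) * |fixedSum ρ|) ^ 2
      = (1 / 2 : ℝ) ^ codim ρ * (fixedSum ρ * fixedSum ρ) := by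
    intro ρ
    rw [mul_pow, e2, sq_abs]; ring
  simp_rw [e1, e2, e3] at hcs
  rw [partition_mass P hP, one_mul] at hcs
  exact hcs

end Vale.Agent.Lib.P047
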