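import Vale.Agent.Lib.P047.Partition

namespace Vale.Agent.Lib.P047

open Finset Polynomial

/-- the linear functional sending `X^j` to `|2j-k|` for `j ≤ k` -/
noncomputable def Lam (k : ℕ) (p : ℝ[X]) : ℝ :=
  ∑ j ∈ range (k + 1), p.coeff j * |2 * (j : ℝ) - k|

lemma Lam_add (k : ℕ) (p q : ℝ[X]) : Lam k (p + q) = Lam k p + Lam k q := by
  unfold Lam
  rw [← Finset.sum_add_distrib]
  apply Finset.sum_congr rfl
  intro j _
  rw [coeff_add]; ring

lemma Lam_sum (k : ℕ) {ι : Type*} (s : Finset ι) (p : ι → ℝ[X]) :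
    Lam k (∑ i ∈ s, p i) = ∑ i ∈ s, Lam k (p i) := by
  unfold Lam
  rw [Finset.sum_comm]
  apply Finset.sum_congr rfl
  intro j _
  rw [finsetSum_coeff, Finset.sum_mul]

lemma Lam_X_pow (k a : ℕ) (ha : a ≤ k) : Lam k (X ^ a) = |2 * (a : ℝ) - k| := by
  unfold Lam
  simp_rw [coeff_X_pow]
  rw [Finset.sum_eq_single a]
  · simp
  · intro j _ hj
    simp [hj]
  · intro h
    exact absurd (Finset.mem_range.mpr (Nat.lt_succ_of_le ha)) h

lemma Lam_lower (k : ℕ) : ∀ (m a : ℕ), a + m ≤ k →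
    2 ^ m * |2 * (a : ℝ) + m - k| ≤ Lam k (X ^ a * (X + 1) ^ m) := by
  intro m
  induction m with
  | zero =>
    intro a ha
    simp only [pow_zero, mul_one, one_mul, Nat.cast_zero, add_zero]
    rw [Lam_X_pow k a (by omega)]
  | succ m ih =>
    intro a ha
    have e : (X : ℝ[X]) ^ a * (X + 1) ^ (m + 1)
        = X ^ (a + 1) * (X + 1) ^ m + X ^ a * (X + 1) ^ m := by ring
    rw [e, Lam_add]
    have h1 := ih (a + 1) (by omega)
    have h2 := ih a (by omega)
    have h3 : |2 * (a : ℝ) + ((m + 1 : ℕ) : ℝ) - k| * 2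
        ≤ |2 * ((a + 1 : ℕ) : ℝ) + m - k| + |2 * (a : ℝ) + m - k| := by
      have : (2 * (a : ℝ) + ((m + 1 : ℕ) : ℝ) - k) * 2
          = (2 * ((a + 1 : ℕ) : ℝ) + m - k) + (2 * (a : ℝ) + m - k) := by
        push_cast; ring
      calc |2 * (a : ℝ) + ((m + 1 : ℕ) : ℝ) - k| * 2
          = |(2 * (a : ℝ) + ((m + 1 : ℕ) : ℝ) - k) * 2| := by
            rw [abs_mul]; norm_num
        _ = |(2 * ((a + 1 : ℕ) : ℝ) + m - k) + (2 * (a : ℝ) + m - k)| := by rw [this]
        _ ≤ _ := abs_add_le _ _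
    have h4 : (0 : ℝ) < 2 ^ m := by positivity
    calc 2 ^ (m + 1) * |2 * (a : ℝ) + ((m + 1 : ℕ) : ℝ) - k|
        = 2 ^ m * (|2 * (a : ℝ) + ((m + 1 : ℕ) : ℝ) - k| * 2) := by ring
      _ ≤ 2 ^ m * (|2 * ((a + 1 : ℕ) : ℝ) + m - k| + |2 * (a : ℝ) + m - k|) :=
          mul_le_mul_of_nonneg_left h3 h4.le
      _ = 2 ^ m * |2 * ((a + 1 : ℕ) : ℝ) + m - k| + 2 ^ m * |2 * (a : ℝ) + m - k| := by ring
      _ ≤ _ := add_le_add h1 h2

/-- polynomial weight: `X` for `true`, `1` for `false` -/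
noncomputable def pw (b : Bool) : ℝ[X] := if b then X else 1

/-- number of `true` coordinates of a point -/
def cnt {n : ℕ} (x : Fin n → Bool) : ℕ := (Finset.univ.filter (fun i => x i = true)).card

/-- number of coordinates fixed to `true` -/
def plus {n : ℕ} (ρ : Fin n → Option Bool) : ℕ :=
  (Finset.univ.filter (fun i => ρ i = some true)).card

lemma prod_pw {n : ℕ} (x : Fin n → Bool) : ∏ i, pw (x i) = X ^ cnt x := by
  unfold pw cnt
  rw [Finset.prod_ite]
  simp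

lemma tot_eq {n : ℕ} (x : Fin n → Bool) : tot x = 2 * (cnt x : ℝ) - n := by
  unfold tot cnt
  have h : ∀ i : Fin n, sgn (x i) = 2 * (if x i = true then (1 : ℝ) else 0) - 1 := by
    intro i
    cases x i <;> simp [sgn] <;> norm_num
  simp_rw [h]
  rw [Finset.sum_sub_distrib, ← Finset.mul_sum, Finset.sum_ite]
  simp

lemma fixedSum_eq {n : ℕ} (ρ : Fin n → Option Bool) :
    fixedSum ρ = 2 * (plus ρ : ℝ) - codim ρ := by
  unfold fixedSum plus codim
  have h : ∀ i : Fin n, val (ρ i) = 2 * (if ρ i = some true then (1 : ℝ) else 0)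
      - (if ρ i ≠ none then (1 : ℝ) else 0) := by
    intro i
    rcases ρ i with _ | b
    · simp [val]
    · cases b <;> simp [val, sgn] <;> norm_num
  simp_rw [h]
  rw [Finset.sum_sub_distrib, ← Finset.mul_sum, Finset.sum_ite, Finset.sum_ite]
  simp

lemma plus_le_codim {n : ℕ} (ρ : Fin n → Option Bool) : plus ρ ≤ codim ρ := by
  unfold plus codim
  apply Finset.card_le_card
  intro i hi
  simp only [Finset.mem_filter, Finset.mem_univ, true_and] at hi ⊢
  rw [hi]; simp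

lemma codim_le {n : ℕ} (ρ : Fin n → Option Bool) : codim ρ ≤ n := by
  unfold codim
  calc _ ≤ (Finset.univ : Finset (Fin n)).card := Finset.card_le_card (Finset.filter_subset _ _)
    _ = n := by simp

lemma prod_fac_pw {n : ℕ} (ρ : Fin n → Option Bool) :
    ∏ i, fac pw (ρ i) = X ^ plus ρ * (X + 1) ^ (n - codim ρ) := by
  have h : ∀ i : Fin n, fac pw (ρ i) = (if ρ i = some true then (X : ℝ[X]) else 1)
      * (if ρ i ≠ none then (1 : ℝ[X]) else X + 1) := by
    intro i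
    rcases ρ i with _ | b
    · simp [fac, pw]
    · cases b <;> simp [fac, pw]
  simp_rw [h]
  rw [Finset.prod_mul_distrib, Finset.prod_ite, Finset.prod_ite]
  simp only [Finset.prod_const, one_pow, mul_one, one_mul]
  congr 2
  unfold codim
  have := Finset.card_filter_add_card_filter_not (s := (Finset.univ : Finset (Fin n))) (fun i => ρ i ≠ none)
  simp only [Finset.card_univ, Fintype.card_fin] at this
  omega

lemma cube_poly (n : ℕ) : ∑ x : Fin n → Bool, ∏ i, pw (x i) = (X + 1 : ℝ[X]) ^ n := by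
  rw [← Fintype.prod_sum (fun (_ : Fin n) b => pw b)]
  simp [pw]

/-- the polynomial identity attached to a subcube partition -/
lemma partition_poly {n k : ℕ} (P : Finset (Fin n → Option Bool))
    (hP : ∀ x, ∃! ρ, ρ ∈ P ∧ InCube ρ x) (hk : ∀ ρ ∈ P, codim ρ ≤ k) :
    ∑ ρ ∈ P, (X : ℝ[X]) ^ plus ρ * (X + 1) ^ (k - codim ρ) = (X + 1) ^ k := by
  have h := partition_sum P hP (fun x => ∏ i, pw (x i))
  simp_rw [sum_cube_prod, prod_fac_pw] at h
  rw [cube_poly] at h
  have hne : ((X + 1 : ℝ[X]) ^ n) ≠ 0 := pow_ne_zero _ (X_add_C_ne_zero (1 : ℝ))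
  apply mul_right_cancel₀ hne
  rw [Finset.sum_mul]
  calc ∑ ρ ∈ P, (X : ℝ[X]) ^ plus ρ * (X + 1) ^ (k - codim ρ) * (X + 1) ^ n
      = ∑ ρ ∈ P, (X + 1) ^ k * ((X : ℝ[X]) ^ plus ρ * (X + 1) ^ (n - codim ρ)) := by
        apply Finset.sum_congr rfl
        intro ρ hρ
        have h1 : k - codim ρ + n = k + (n - codim ρ) := by
          have := hk ρ hρ
          have := codim_le ρ
          omega
        calc (X : ℝ[X]) ^ plus ρ * (X + 1) ^ (k - codim ρ) * (X + 1) ^ n
            = X ^ plus ρ * (X + 1) ^ (k - codim ρ + n) := by rw [pow_add]; ring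
          _ = X ^ plus ρ * (X + 1) ^ (k + (n - codim ρ)) := by rw [h1]
          _ = _ := by rw [pow_add]; ring
    _ = (X + 1) ^ k * (X + 1) ^ n := by rw [← Finset.mul_sum, h]

lemma Lam_full (k : ℕ) : Lam k ((X + 1) ^ k) = 2 ^ k * B k := by
  rw [← cube_poly, Lam_sum]
  unfold B
  have h2 : (2 : ℝ) ^ k ≠ 0 := by positivity
  rw [mul_div_cancel₀ _ h2]
  apply Finset.sum_congr rfl
  intro x _
  have hc : cnt x ≤ k := by
    unfold cnt
    calc _ ≤ (Finset.univ : Finset (Fin k)).card := Finset.card_le_card (Finset.filter_subset _ _)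
      _ = k := by simp
  rw [prod_pw, Lam_X_pow k _ hc]
  have := tot_eq x
  unfold tot at this
  rw [this]

/-- sharp bound: a function constant on the cells of a subcube partition of codimension at
most `k` has level-one sum at most `B k`. -/
theorem partition_sharp_bound {n k : ℕ} (P : Finset (Fin n → Option Bool))
    (hP : ∀ x, ∃! ρ, ρ ∈ P ∧ InCube ρ x) (hk : ∀ ρ ∈ P, codim ρ ≤ k)
    (f : (Fin n → Bool) → ℝ) (hf : ∀ x, |f x| ≤ 1)
    (hconst : ∀ ρ ∈ P, ∀ x y, InCube ρ x → InCube ρ y → f x = f y) :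
    levelOne f ≤ B k := by
  refine (levelOne_partition_le P hP f hf hconst).trans ?_
  have h2 : (0 : ℝ) < 2 ^ k := by positivity
  have key : 2 ^ k * ∑ ρ ∈ P, (1 / 2 : ℝ) ^ codim ρ * |fixedSum ρ| ≤ 2 ^ k * B k := by
    rw [← Lam_full, ← partition_poly P hP hk, Lam_sum, Finset.mul_sum]
    apply Finset.sum_le_sum
    intro ρ hρ
    have hκ := hk ρ hρ
    have h3 := Lam_lower k (k - codim ρ) (plus ρ) (by have := plus_le_codim ρ; omega)
    refine le_trans (le_of_eq ?_) h3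
    have h4 : (2 : ℝ) ^ k = 2 ^ (k - codim ρ) * 2 ^ codim ρ := by
      rw [← pow_add]; congr 1; omega
    have h5 : (2 : ℝ) ^ codim ρ * (1 / 2 : ℝ) ^ codim ρ = 1 := by
      rw [← mul_pow]; norm_num
    have h6 : fixedSum ρ = 2 * (plus ρ : ℝ) + ((k - codim ρ : ℕ) : ℝ) - k := by
      rw [fixedSum_eq, Nat.cast_sub hκ]; ring
    rw [h4, ← h6]
    calc 2 ^ (k - codim ρ) * 2 ^ codim ρ * ((1 / 2 : ℝ) ^ codim ρ * |fixedSum ρ|)
        = 2 ^ (k - codim ρ) * (2 ^ codim ρ * (1 / 2 : ℝ) ^ codim ρ) * |fixedSum ρ| := by ring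
      _ = _ := by rw [h5, mul_one]
  exact le_of_mul_le_mul_left key h2

end Vale.Agent.Lib.P047
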